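import Vale.Agent.P227.M.MM.Ifc
import Vale.Agent.P227.M.LK.DescK
import Vale.Agent.P227.M.LK.TV
import Vale.Agent.P227.M.LK.Law
import Vale.Agent.P227.M.Bas

/-! # P227/M, block MM: `StmtDesc` (helper290), from `LK/DescK` (447), `LK/TV` (447), `LK/Law` (541). -/

open MeasureTheory Filter
open scoped Topology RealInnerProductSpace

namespace Vale.Agent.P227.M.MM.D290

variable {n : ℕ}

theorem fderiv_zero_of_even {f : E n → ℝ} (he : ∀ x, f (-x) = f x) : fderiv ℝ f 0 = 0 := by
  by_cases hd : DifferentiableAt ℝ f 0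
  · have h1 : HasFDerivAt f (fderiv ℝ f 0) (-(0 : E n)) := by rw [neg_zero]; exact hd.hasFDerivAt
    have h2 : HasFDerivAt (fun x : E n => -x) (-(ContinuousLinearMap.id ℝ (E n))) 0 :=
      (hasFDerivAt_id (0 : E n)).neg
    have h3 := h1.comp (0 : E n) h2
    have h4 : (f ∘ fun x : E n => -x) = f := funext he
    rw [h4] at h3
    have h5 := hd.hasFDerivAt.unique h3
    ext v
    have h6 := congrArg (fun L : E n →L[ℝ] ℝ => L v) h5
    simp at h6
    simp
    linarith
  · exact fderiv_zero_of_not_differentiableAt hd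

theorem upper_quad {f : E n → ℝ} (hf : ContDiff ℝ 2 f) {C : ℝ}
    (hC : ∀ x v, qf (hess f x) v ≤ C * ‖v‖ ^ 2) (x : E n) :
    f x ≤ f 0 + fderiv ℝ f 0 x + C / 2 * ‖x‖ ^ 2 := by
  have hn : ContDiff ℝ 2 (fun x => -f x) := hf.neg
  have h1 : ∀ x v, (-C) * ‖v‖ ^ 2 ≤ qf (hess (fun x => -f x) x) v := by
    intro x v
    rw [qf_hess_eq hn]
    have e1 : fderiv ℝ (fun x => -f x) = fun x => -fderiv ℝ f x := by
      ext1 x
      exact fderiv_fun_neg
    rw [e1, fderiv_fun_neg]
    have := hC x v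
    rw [qf_hess_eq hf] at this
    simp only [neg_apply]
    linarith
  have h2 := lower_quad hn h1 x
  rw [fderiv_fun_neg] at h2
  simp only [neg_apply] at h2
  linarith

theorem qg_of_nice {c : E n → ℝ} {a b : ℝ} (h : Nice c a b) : LK.Dsc.Qg a b c where
  meas := h.smooth.continuous.measurable
  lo := fun x => by
    have := lower_quad h.toReg.C2 h.lower x
    rw [fderiv_zero_of_even h.even] at this
    simpa using this
  hi := fun x => by
    have := upper_quad h.toReg.C2 h.upper x
    rw [fderiv_zero_of_even h.even] at this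
    simpa using this

theorem pot_of_nice {V : E n → ℝ} {c C : ℝ} (h : Nice V c C) :
    LK.Dsc.Pot (fun x => V x + Real.log (∫ x, Real.exp (-V x))) := by
  have hR := h.toReg
  set Z := ∫ x, Real.exp (-V x) with hZ
  have hZp : 0 < Z := hR.Z_pos
  have e1 : ∀ x, Real.exp (-(V x + Real.log Z)) = Real.exp (-V x) * Z⁻¹ := fun x => by
    rw [neg_add, Real.exp_add, Real.exp_neg (Real.log Z), Real.exp_log hZp]
  have hi := hR.integrable_exp
  refine ⟨(hR.cont.measurable).add_const _, ?_, ?_, ?_, ?_⟩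
  · simp only [e1]
    exact hi.mul_const _
  · simp only [e1]
    rw [integral_mul_const, ← hZ, mul_inv_cancel₀ hZp.ne']
  · simp only [e1]
    have h1 := (hR.integrable_gr (hR.gr.add (Gr.const (Real.log Z)))).mul_const Z⁻¹
    refine h1.congr (Eventually.of_forall fun x => ?_)
    simp only
    ring
  · simp only [e1]
    have h1 := (hR.integrable_gr (Gr.norm.pow 2)).mul_const Z⁻¹
    refine h1.congr (Eventually.of_forall fun x => ?_)
    simp only
    ring

/-! ### identification of the objects -/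

theorem phi_eq (k : ℝ) (c : E n → ℝ) : LK.Dsc.phi k c = phiK k c := rfl

theorem Q_eq (k : ℝ) (c : E n → ℝ) : LK.Dsc.Q k c = QK k c := rfl

theorem T_eq (k : ℝ) (V c : E n → ℝ) : LK.Dsc.T k V c = TK k V c := rfl

theorem TK_add_const (k s : ℝ) (V c : E n → ℝ) : TK k (fun x => V x + s) c = TK k V c := by
  ext x
  unfold TK
  ring

/-- `W = k c` satisfies the growth hypothesis of `LL` -/
theorem gr_of_nice {c : E n → ℝ} {a b k : ℝ} (hk : 0 < k) (ha : 0 < a) (h : Nice c a b) :
    LL.Gr (fun x => k * c x) (k * a / 2) (-(k * c 0)) where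
  cont := continuous_const.mul h.smooth.continuous
  pos := by positivity
  low := fun x => by
    have := mul_le_mul_of_nonneg_left ((qg_of_nice h).lo x) hk.le
    linarith

theorem grad_phi {c : E n → ℝ} {k a C : ℝ} (hk : 0 < k) (hW : LL.Gr (fun x => k * c x) a C) (y : E n) :
    gradient (phiK k c) y = LK.Law.mn k (fun x => k * c x) y := by
  have hd : HasFDerivAt (phiK k c) (fderiv ℝ (phiK k c) y) y := by
    have h1 : ContDiff ℝ (⊤ : ℕ∞) (phiK k c) :=
      contDiff_const.mul ((LL.contDiff_Lam hW).comp (contDiff_const_smul k))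
    exact (h1.differentiable (by simp) y).hasFDerivAt
  refine ext_inner_right ℝ fun v => ?_
  have e1 : ⟪gradient (phiK k c) y, v⟫ = fderiv ℝ (phiK k c) y v := by
    unfold gradient
    rw [InnerProductSpace.toDual_symm_apply]
  rw [e1]
  unfold LK.Law.mn
  rw [LK.Law.inner_av hW]
  -- derivative along the line
  have h2 : HasDerivAt (fun t : ℝ => phiK k c (y + t • v)) (fderiv ℝ (phiK k c) y v) 0 := by
    have hl : HasDerivAt (fun t : ℝ => y + t • v) v 0 := by
      simpa using ((hasDerivAt_id (0 : ℝ)).smul_const v).const_add y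
    have hd' : HasFDerivAt (phiK k c) (fderiv ℝ (phiK k c) y) (y + (0 : ℝ) • v) := by simpa using hd
    exact hd'.comp_hasDerivAt (0 : ℝ) hl
  have h3 : HasDerivAt (fun t : ℝ => phiK k c (y + t • v)) (1 / k * LL.av (fun x => k * c x) (k • y + (0 : ℝ) • (k • v)) (fun x => ⟪x, k • v⟫)) 0 := by
    have h4 := (LL.hasDerivAt_Lam hW (k • y) (k • v) 0).const_mul (1 / k)
    have e2 : (fun t : ℝ => phiK k c (y + t • v)) = fun t : ℝ => 1 / k * LL.Lam (fun x => k * c x) (k • y + t • (k • v)) := by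
      funext t
      have : k • (y + t • v) = k • y + t • (k • v) := by rw [smul_add, smul_comm]
      unfold phiK
      rw [this]
      rfl
    rw [e2]
    exact h4
  rw [h2.unique h3, zero_smul, add_zero]
  simp only [real_inner_smul_right]
  rw [LL.av_const_mul]
  field_simp

theorem grad_phi_fun {c : E n → ℝ} {k a C : ℝ} (hk : 0 < k) (hW : LL.Gr (fun x => k * c x) a C) :
    gradient (phiK k c) = LK.Law.mn k (fun x => k * c x) := funext fun y => grad_phi hk hW y

theorem c2_le {c : E n → ℝ} {k a C b : ℝ} (hk : 0 < k) (hW : LL.Gr (fun x => k * c x) a C)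
    (hb : ∀ y v, qf (hess (phiK k c) y) v ≤ b * ‖v‖ ^ 2) (y v : E n) :
    LL.c2 (fun x => k * c x) y v ≤ (b / k) * ‖v‖ ^ 2 := by
  have h1 : ContDiff ℝ (⊤ : ℕ∞) (phiK k c) :=
    contDiff_const.mul ((LL.contDiff_Lam hW).comp (contDiff_const_smul k))
  have h1' : ContDiff ℝ 2 (phiK k c) := h1.of_le (by norm_cast)
  set y0 : E n := k⁻¹ • y with hy0
  have hy : k • y0 = y := by rw [hy0, smul_smul, mul_inv_cancel₀ hk.ne', one_smul]
  have hline : ∀ t : ℝ, HasDerivAt (fun t : ℝ => y0 + t • v) v t := fun t => by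
    simpa using ((hasDerivAt_id t).smul_const v).const_add y0
  have hg : ∀ t : ℝ, HasDerivAt (fun t : ℝ => phiK k c (y0 + t • v)) (fderiv ℝ (phiK k c) (y0 + t • v) v) t :=
    fun t => ((h1.differentiable (by simp)) _).hasFDerivAt.comp_hasDerivAt t (hline t)
  have hg2 : HasDerivAt (fun t : ℝ => fderiv ℝ (phiK k c) (y0 + t • v) v)
      ((fderiv ℝ (fderiv ℝ (phiK k c)) y0 v) v) 0 := by
    have hd : Differentiable ℝ (fderiv ℝ (phiK k c)) :=
      (h1'.fderiv_right (m := 1) (by norm_num)).differentiable (by norm_num)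
    have h := (hd (y0 + (0 : ℝ) • v)).hasFDerivAt.comp_hasDerivAt (0 : ℝ) (hline 0)
    have h' := h.clm_apply (hasDerivAt_const (0 : ℝ) v)
    simpa using h'
  have e2 : ∀ t : ℝ, phiK k c (y0 + t • v) = 1 / k * LL.Lam (fun x => k * c x) (y + t • (k • v)) := by
    intro t
    have : k • (y0 + t • v) = y + t • (k • v) := by rw [smul_add, hy, smul_comm k t]
    unfold phiK
    rw [this]
    rfl
  have hk2 : ∀ t : ℝ, fderiv ℝ (phiK k c) (y0 + t • v) v = 1 / k * LL.av (fun x => k * c x) (y + t • (k • v)) (fun x => ⟪x, k • v⟫) := by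
    intro t
    have h4 := (LL.hasDerivAt_Lam hW y (k • v) t).const_mul (1 / k)
    have h5 : HasDerivAt (fun t : ℝ => phiK k c (y0 + t • v)) (1 / k * LL.av (fun x => k * c x) (y + t • (k • v)) (fun x => ⟪x, k • v⟫)) t := by
      have : (fun t : ℝ => phiK k c (y0 + t • v)) = fun t : ℝ => 1 / k * LL.Lam (fun x => k * c x) (y + t • (k • v)) := funext e2
      rw [this]
      exact h4
    exact (hg t).unique h5
  have h6 : HasDerivAt (fun t : ℝ => fderiv ℝ (phiK k c) (y0 + t • v) v) (1 / k * LL.c2 (fun x => k * c x) (y + (0 : ℝ) • (k • v)) (k • v)) 0 := by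
    have : (fun t : ℝ => fderiv ℝ (phiK k c) (y0 + t • v) v) = fun t : ℝ => 1 / k * LL.av (fun x => k * c x) (y + t • (k • v)) (fun x => ⟪x, k • v⟫) := funext hk2
    rw [this]
    exact (LL.hasDerivAt_m1 hW y (k • v) 0).const_mul (1 / k)
  have h7 := hg2.unique h6
  rw [zero_smul, add_zero] at h7
  have h8 : LL.c2 (fun x => k * c x) y (k • v) = k ^ 2 * LL.c2 (fun x => k * c x) y v := by
    unfold LL.c2
    simp only [real_inner_smul_right]
    rw [LL.av_const_mul]
    have : (fun x : E n => (k * ⟪x, v⟫ - k * LL.av (fun x => k * c x) y (fun x => ⟪x, v⟫)) ^ 2)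
        = fun x => k ^ 2 * (⟪x, v⟫ - LL.av (fun x => k * c x) y (fun x => ⟪x, v⟫)) ^ 2 := by
      funext x
      ring
    rw [this, LL.av_const_mul]
  have h9 := hb y0 v
  rw [qf_hess_eq h1', h7, h8] at h9
  have h10 : k * LL.c2 (fun x => k * c x) y v ≤ b * ‖v‖ ^ 2 := by
    calc k * LL.c2 (fun x => k * c x) y v = 1 / k * (k ^ 2 * LL.c2 (fun x => k * c x) y v) := by field_simp
      _ ≤ _ := h9
  calc LL.c2 (fun x => k * c x) y v = (k * LL.c2 (fun x => k * c x) y v) / k := by field_simp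
    _ ≤ (b * ‖v‖ ^ 2) / k := by gcongr
    _ = _ := by ring

theorem stmtDesc : StmtDesc := by
  intro n hn V c₀ C₀ m k hV hm hk1 hcls hphi ε hε
  have hk : 0 < k := by linarith
  have hc₀ : 0 < c₀ := hV.c_pos
  have hC₀ : 0 < C₀ := hc₀.trans_le (nice_le hn hV.toReg)
  set s₀ := Real.log (∫ x, Real.exp (-V x)) with hs₀
  have hZV : 0 < ∫ x, Real.exp (-V x) := hV.toReg.Z_pos
  set V' : E n → ℝ := fun x => V x + s₀ with hV'
  have hPot : LK.Dsc.Pot V' := pot_of_nice hV
  have ha : 0 < c₀ * (k + 1) / k := by positivity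
  have hb : 0 < C₀ * (k + 1) / k := by positivity
  set η := ε / 2 with hη
  have hηp : 0 < η := by positivity
  obtain ⟨c, ⟨i, rfl⟩, hKL⟩ := LK.Dsc.exists_KL_le (V := V') hk ha hb hPot
    (fun c => ∃ i, c = itK k c₀ V i) (itK k c₀ V 0) ⟨0, rfl⟩
    (by
      rintro c ⟨i, rfl⟩
      refine ⟨i + 1, ?_⟩
      rw [T_eq, hV', TK_add_const]
      rfl)
    (by
      rintro c ⟨i, rfl⟩
      exact qg_of_nice (hcls i).nice)
    (ε := η ^ 2) (by positivity)
  refine ⟨i, fun F hF hF1 => ?_⟩
  set c := itK k c₀ V i with hc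
  have hN := (hcls i).nice
  have hQ := qg_of_nice hN
  have hGr := gr_of_nice hk ha hN
  have hW1 := hQ.integral_W hk ha hb
  have hWi := hQ.integrable_exp_neg_W hk ha hb
  have hφi : Integrable fun y : E n => Real.exp (-phiK k c y) := hQ.int3 hk ha hb
  have hZp : 0 < ∫ y : E n, Real.exp (-phiK k c y) := hQ.Z_pos hk ha hb
  -- integrability of the relative entropy density
  have hN' := (hcls (i + 1)).nice
  have hQgr : Gr (LK.Dsc.Q k c) := by
    have h1 : LK.Dsc.Q k c = fun x => (k * itK k c₀ V (i + 1) x - V x) + (V 0 + QK k c 0) := by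
      funext x
      have h2 : itK k c₀ V (i + 1) x = (V x + QK k c x) / k - (V 0 + QK k c 0) / k := rfl
      rw [h2, Q_eq]
      field_simp
      ring
    rw [h1]
    exact ((hN'.toReg.gr.const_mul k).sub hV.toReg.gr).add (Gr.const _)
  have eV' : ∀ x, Real.exp (-V' x) = Real.exp (-V x) * (∫ x, Real.exp (-V x))⁻¹ := fun x => by
    rw [hV']
    simp only
    rw [neg_add, Real.exp_add, Real.exp_neg s₀, hs₀, Real.exp_log hZV]
  have hKi : Integrable (fun x => (LK.Dsc.W k c x - V' x) * Real.exp (-V' x)) := by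
    have h1 : Gr (fun x => ((k * c x - LK.Dsc.Q k c x) + Real.log (LK.Dsc.Z k c)) - (V x + s₀)) :=
      (((hN.toReg.gr.const_mul k).sub hQgr).add (Gr.const _)).sub (hV.toReg.gr.add (Gr.const _))
    have h2 := (hV.toReg.integrable_gr h1).mul_const (∫ x, Real.exp (-V x))⁻¹
    refine h2.congr (Eventually.of_forall fun x => ?_)
    simp only
    rw [eV']
    unfold LK.Dsc.W
    ring
  -- total variation
  have hTV := LK.abs_sub_le_of_KL (μ := (volume : Measure (E n))) (V := V') (W := LK.Dsc.W k c) (F := F) (M := 1) (η := η)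
    hηp hPot.int0 hWi hPot.one hW1 hKi hKL hF.continuous.aestronglyMeasurable zero_le_one hF1
  -- the law
  have hs : 0 < Real.sqrt (n / (c₀ * k)) := Real.sqrt_pos.2 (by positivity)
  have hlaw := LK.Law.law (W := fun x => k * c x) (φ := phiK k c) hGr hk (fun y => rfl) hφi
    (σ := k / ((k + 1) * c₀) / k) (fun y v => c2_le hk hGr (fun y v => (hphi i).upper y v) y v)
    (F := F) (B := 1) (L := 1) zero_le_one
    (fun x x' => by simpa [dist_eq_norm, Real.dist_eq] using hF.dist_le_mul x x') hF1 hs (by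
      rw [Real.sq_sqrt (by positivity)]
      simp only [finrank_euclideanSpace, Fintype.card_fin]
      have : (k / ((k + 1) * c₀) / k) ≤ 1 / (c₀ * k) := by
        rw [div_div, div_le_div_iff₀ (by positivity) (by positivity)]
        nlinarith
      calc (n : ℝ) * (k / ((k + 1) * c₀) / k) ≤ n * (1 / (c₀ * k)) := by gcongr
        _ = _ := by ring)
  rw [← grad_phi_fun hk hGr] at hlaw
  set Zφ := ∫ y : E n, Real.exp (-phiK k c y) with hZφ
  have eW : ∀ x, Real.exp (-(k * c x)) * LL.Z (fun y => (k + 1) * phiK k c y) (k • x)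
      = Real.exp (-LK.Dsc.W k c x) * Zφ := by
    intro x
    have hi2 : Integrable fun y : E n => Real.exp (inner ℝ y (k • x) - (k + 1) * phiK k c y) := by
      refine (hQ.int2 hk ha hb x).congr (Eventually.of_forall fun y => ?_)
      simp only [real_inner_smul_right, real_inner_comm, phi_eq]
      rfl
    have h1 : 0 < LL.Z (fun y => (k + 1) * phiK k c y) (k • x) := integral_exp_pos hi2
    have h2 : Real.exp (LK.Dsc.Q k c x) = LL.Z (fun y => (k + 1) * phiK k c y) (k • x) := by
      have : LK.Dsc.Q k c x = Real.log (LL.Z (fun y => (k + 1) * phiK k c y) (k • x)) := rfl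
      rw [this, Real.exp_log h1]
    have h3 : LK.Dsc.Z k c = Zφ := rfl
    unfold LK.Dsc.W
    rw [← h2, h3, neg_add, Real.exp_add, Real.exp_neg (Real.log Zφ), Real.exp_log hZp, neg_sub, ← Real.exp_add]
    rw [mul_assoc, inv_mul_cancel₀ hZp.ne', mul_one]
    congr 1
    ring
  have e3 : (∫ x, F x * (Real.exp (-(k * c x)) * LL.Z (fun y => (k + 1) * phiK k c y) (k • x)))
      = (∫ x, F x * Real.exp (-LK.Dsc.W k c x)) * Zφ := by
    rw [← integral_mul_const]
    congr 1
    funext x
    rw [eW]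
    ring
  rw [e3, one_mul] at hlaw
  have e4 : (∫ x, F x * Real.exp (-V' x)) = (∫ x, F x * Real.exp (-V x)) / (∫ x, Real.exp (-V x)) := by
    rw [div_eq_mul_inv, ← integral_mul_const]
    congr 1
    funext x
    rw [eV']
    ring
  rw [e4] at hTV
  have h5 : |(∫ y, F (gradient (phiK k c) y) * Real.exp (-phiK k c y)) / Zφ - ∫ x, F x * Real.exp (-LK.Dsc.W k c x)|
      ≤ Real.sqrt (n / (c₀ * k)) := by
    have h6 : (∫ y, F (gradient (phiK k c) y) * Real.exp (-phiK k c y)) / Zφ - ∫ x, F x * Real.exp (-LK.Dsc.W k c x)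
        = ((∫ y, F (gradient (phiK k c) y) * Real.exp (-phiK k c y)) - (∫ x, F x * Real.exp (-LK.Dsc.W k c x)) * Zφ) / Zφ := by
      field_simp
    rw [h6, abs_div, abs_of_pos hZp, div_le_iff₀ hZp]
    exact hlaw
  calc _ ≤ |(∫ y, F (gradient (phiK k c) y) * Real.exp (-phiK k c y)) / Zφ - ∫ x, F x * Real.exp (-LK.Dsc.W k c x)|
        + |(∫ x, F x * Real.exp (-LK.Dsc.W k c x)) - (∫ x, F x * Real.exp (-V x)) / (∫ x, Real.exp (-V x))| :=
        abs_sub_le _ _ _
    _ ≤ Real.sqrt (n / (c₀ * k)) + 2 * 1 * η := add_le_add h5 hTV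
    _ = _ := by rw [hη]; ring

end Vale.Agent.P227.M.MM.D290

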