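import Vale.Agent.P227.M.MM.Ifc
import Vale.Agent.P227.M.LK.SCInv

/-! # `StmtInv` from `StmtSC` and the regularity of the log-Laplace transform. -/

namespace Vale.Agent.P227.M.MM

variable {n : ℕ}

theorem cls_iff {k c₀ C₀ m : ℝ} {c : E n → ℝ} : Cls k c₀ C₀ m c ↔ LK.ClassK k c₀ C₀ m c :=
  ⟨fun h => ⟨h.nice, h.sc, h.zero⟩, fun h => ⟨h.nice, h.sc, h.zero⟩⟩

theorem phiK_eq (k : ℝ) (c : E n → ℝ) : phiK k c = LK.phiK k c := rfl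

theorem QK_eq (k : ℝ) (c : E n → ℝ) : QK k c = LK.QK k c := rfl

theorem TK_eq (k : ℝ) (V c : E n → ℝ) : TK k V c = LK.TK k V c := rfl

theorem stmtInv_of (hSC : StmtSC) (hLL : LK.RegLL) : StmtInv := by
  intro n hn V c₀ C₀ hV
  obtain ⟨MV, hMV, hVs⟩ := LK.Reg.exists_selfConc hV.toReg
  have hc0 : 0 < c₀ := hV.c_pos
  have hC0 : 0 < C₀ := hc0.trans_le (nice_le hn hV.toReg)
  refine ⟨2 / 3 * MV * √(C₀ / c₀), max 1 ((2 / 3 * MV * √(C₀ / c₀)) ^ 2), by positivity, le_max_left _ _,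
    fun k hk => ?_⟩
  have hk0 : 0 < k := lt_of_lt_of_le one_pos ((le_max_left _ _).trans hk)
  have hmk : (2 / 3 * MV * √(C₀ / c₀)) ^ 2 ≤ k := (le_max_right _ _).trans hk
  refine ⟨fun c hc => ?_, fun c hc => ⟨?_, ?_⟩⟩
  · exact cls_iff.2 (LK.ClassK.TK_mem hSC hLL hV hC0 hMV hVs le_rfl hk0 hmk (cls_iff.1 hc))
  · exact LK.nice_phiK hLL hk0 hc0 hC0 hc.nice
  · exact LK.sc_phiK hSC hLL hk0 hC0 (by positivity) hmk hc.nice hc.sc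

end Vale.Agent.P227.M.MM
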