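import Vale.Agent.P227.M.MM.Ifc
import Vale.Agent.P227.M.Lim.L4

/-! # P227/M, block MM: `StmtLK → StmtLIM` (helper811) -/

open MeasureTheory Filter
open scoped Topology

namespace Vale.Agent.P227.M.MM

open Lim

/-- **the limit `k → ∞`** -/
theorem stmtLIM_of (h : StmtLK) : StmtLIM := by
  intro n hn V c₀ C₀ hV
  obtain ⟨M, hM⟩ := h n hn V c₀ C₀ hV
  have hc : 0 < c₀ := hV.c_pos
  have hC : 0 < C₀ := hc.trans_le (nice_le hn hV.toReg)
  have he : ∀ j : ℕ, (0 : ℝ) < 1 / ((j : ℝ) + 2) ∧ 1 / ((j : ℝ) + 2) ≤ 1 / 2 := by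
    intro j
    have : (0 : ℝ) ≤ j := Nat.cast_nonneg j
    constructor
    · positivity
    · exact one_div_le_one_div_of_le two_pos (by linarith)
  choose φ G H hC21 hint hF using fun j : ℕ => hM (1 / ((j : ℝ) + 2)) (he j).1 (by linarith [(he j).2])
  have he0 : Tendsto (fun j : ℕ => 1 / ((j : ℝ) + 2)) atTop (𝓝 0) := by
    have h1 : Tendsto (fun j : ℕ => ((j : ℝ) + 2)) atTop atTop :=
      tendsto_atTop_add_const_right _ _ tendsto_natCast_atTop_atTop
    simpa [one_div, Function.comp_def] using tendsto_inv_atTop_zero.comp h1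
  have ha : 0 < 1 / 2 * C₀⁻¹ := by positivity
  have hb : 0 < c₀⁻¹ := by positivity
  have hC' : ∀ j, C21 (1 / 2 * C₀⁻¹) c₀⁻¹ M (φ j) (G j) (H j) := by
    intro j
    refine ⟨(hC21 j).grad, (hC21 j).hess, fun y v => ?_, (hC21 j).upper, (hC21 j).lip, (hC21 j).even⟩
    refine le_trans ?_ ((hC21 j).lower y v)
    have h1 : 1 / 2 * C₀⁻¹ ≤ (1 - 1 / ((j : ℝ) + 2)) * C₀⁻¹ :=
      mul_le_mul_of_nonneg_right (by linarith [(he j).2]) (by positivity)
    exact mul_le_mul_of_nonneg_right h1 (by positivity)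
  have hVc : Continuous V := hV.smooth.continuous
  have hVi : Integrable (fun x => Real.exp (-V x)) := by
    by_contra hcon
    have h0 := integral_undef hcon
    have h1 := hint 0
    rw [h0] at h1
    have h2 : 0 < ∫ y, Real.exp (-φ 0 y) := by
      rw [integral_pos_iff_support_of_nonneg (fun y => (Real.exp_pos _).le) ((hC' 0).integrable ha)]
      have : Function.support (fun y : E n => Real.exp (-φ 0 y)) = Set.univ := by
        ext y
        simp [Real.exp_ne_zero]
      rw [this]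
      exact isOpen_univ.measure_pos volume Set.univ_nonempty
    exact h2.ne' h1
  obtain ⟨ψ, hψ, φ', G', H', hC2, -, -, hH, hma⟩ := exists_ma ha hb hVc hVi hC' hint (by
    intro f hfK hfB
    obtain ⟨K, hK⟩ := hfK
    obtain ⟨B, hB⟩ := hfB
    have hB0 : 0 ≤ B := (abs_nonneg _).trans (hB 0)
    set l : ℝ := K + B + 1 with hl
    have hl0 : 0 < l := by positivity
    -- the rescaled function
    have h1 : LipschitzWith 1 (fun x => l⁻¹ * f x) := by
      refine LipschitzWith.of_dist_le_mul fun x y => ?_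
      rw [Real.dist_eq, ← mul_sub, abs_mul, abs_of_pos (by positivity : 0 < l⁻¹)]
      have h2 := hK.dist_le_mul x y
      rw [Real.dist_eq] at h2
      have h3 : (K : ℝ) * dist x y ≤ l * dist x y := mul_le_mul_of_nonneg_right (by linarith) dist_nonneg
      rw [inv_mul_le_iff₀ hl0]
      simpa using h2.trans h3
    have h2 : ∀ x, |l⁻¹ * f x| ≤ 1 := by
      intro x
      rw [abs_mul, abs_of_pos (by positivity : 0 < l⁻¹), inv_mul_le_iff₀ hl0, mul_one]
      have := hB x
      have hK0 : (0 : ℝ) ≤ K := K.2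
      linarith
    rw [tendsto_iff_dist_tendsto_zero]
    refine squeeze_zero (fun _ => dist_nonneg) (g := fun j : ℕ => l * (1 / ((j : ℝ) + 2))) (fun j => ?_) ?_
    · have h3 := hF j (fun x => l⁻¹ * f x) h1 h2
      have h4 : (∫ y, l⁻¹ * f (G j y) * Real.exp (-φ j y)) = l⁻¹ * ∫ y, f (G j y) * Real.exp (-φ j y) := by
        rw [← integral_const_mul]
        refine integral_congr_ae (Eventually.of_forall fun y => ?_)
        simp only
        ring
      have h5 : (∫ x, l⁻¹ * f x * Real.exp (-V x)) = l⁻¹ * ∫ x, f x * Real.exp (-V x) := by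
        rw [← integral_const_mul]
        refine integral_congr_ae (Eventually.of_forall fun y => ?_)
        simp only
        ring
      rw [h4, h5, ← mul_sub, abs_mul, abs_of_pos (by positivity : 0 < l⁻¹), inv_mul_le_iff₀ hl0] at h3
      rw [Real.dist_eq]
      exact h3
    · simpa using he0.const_mul l)
  refine ⟨M, φ', G', H', ⟨hC2.grad, hC2.hess, fun y v => ?_, hC2.upper, hC2.lip, hC2.even⟩, fun y => ?_⟩
  · have h1 : Tendsto (fun j => (inner ℝ (H (ψ j) y v) v : ℝ)) atTop (𝓝 (inner ℝ (H' y v) v)) :=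
      Tendsto.inner (((ContinuousLinearMap.apply ℝ (E n) v).continuous.tendsto _).comp (hH y)) tendsto_const_nhds
    have h2 : Tendsto (fun j => (1 - 1 / (((ψ j : ℕ) : ℝ) + 2)) * C₀⁻¹ * ‖v‖ ^ 2) atTop (𝓝 ((1 - 0) * C₀⁻¹ * ‖v‖ ^ 2)) :=
      (((he0.comp hψ.tendsto_atTop).const_sub 1).mul_const _).mul_const _
    have h3 := le_of_tendsto_of_tendsto' h2 h1 fun j => (hC21 (ψ j)).lower y v
    simpa using h3
  · rw [hma y]
    have h1 : 0 < (H' y).det := Vale.Agent.P227.M.LIM.det_pos_of_coercive ha (H' y) (fun v => hC2.lower y v)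
    rw [abs_of_pos h1]

end Vale.Agent.P227.M.MM
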