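import Vale.Agent.P227.M.MM.Ifc

/-! # P227/M/MM: quadratic potentials are nice and self-concordant; `StmtStart`. -/

open MeasureTheory
open scoped Topology

namespace Vale.Agent.P227.M.MM.Start102

variable {n : ℕ}

theorem hasFDerivAt_quad (a : ℝ) (x : E n) :
    HasFDerivAt (fun x : E n => a / 2 * ‖x‖ ^ 2) (a • innerSL ℝ x) x := by
  have h := ((hasStrictFDerivAt_norm_sq x).hasFDerivAt).const_mul (a / 2)
  refine h.congr_fderiv ?_
  ext v
  simp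
  ring

theorem fderiv_quad (a : ℝ) :
    fderiv ℝ (fun x : E n => a / 2 * ‖x‖ ^ 2) = fun x => (a • innerSL ℝ : E n →L[ℝ] E n →L[ℝ] ℝ) x := by
  funext x
  rw [(hasFDerivAt_quad a x).fderiv]
  rfl

theorem contDiff_quad (a : ℝ) : ContDiff ℝ (⊤ : ℕ∞) (fun x : E n => a / 2 * ‖x‖ ^ 2) :=
  contDiff_const.mul (contDiff_norm_sq ℝ)

theorem pd_quad (a : ℝ) (j : Fin n) :
    pd j (fun x : E n => a / 2 * ‖x‖ ^ 2) = fun x => a * x j := by
  funext x
  rw [pd, (hasFDerivAt_quad a x).fderiv]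
  simp [ei, PiLp.inner_apply]

theorem hess_quad (a : ℝ) (x : E n) :
    hess (fun x : E n => a / 2 * ‖x‖ ^ 2) x = a • (1 : Matrix (Fin n) (Fin n) ℝ) := by
  ext i j
  rw [hess, pd_quad]
  have h : HasFDerivAt (fun x : E n => a * x j) (a • (EuclideanSpace.proj j : E n →L[ℝ] ℝ)) x :=
    ((EuclideanSpace.proj j : E n →L[ℝ] ℝ).hasFDerivAt).const_mul a
  rw [pd, h.fderiv]
  by_cases hij : i = j
  · subst hij
    simp [ei]
  · simp [ei, hij, Ne.symm hij]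

theorem qf_quad (a : ℝ) (x v : E n) :
    qf (hess (fun x : E n => a / 2 * ‖x‖ ^ 2) x) v = a * ‖v‖ ^ 2 := by
  rw [hess_quad, qf, EuclideanSpace.norm_sq_eq, Finset.mul_sum]
  refine Finset.sum_congr rfl fun i _ => ?_
  rw [Finset.sum_eq_single i]
  · simp
    ring
  · intro j _ hj
    simp [Matrix.one_apply_ne (Ne.symm hj)]
  · simp

theorem bdd_quad (a : ℝ) (k : ℕ) (hk : 2 ≤ k) :
    ∃ B : ℝ, ∀ x, ‖iteratedFDeriv ℝ k (fun x : E n => a / 2 * ‖x‖ ^ 2) x‖ ≤ B := by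
  obtain ⟨j, rfl⟩ := Nat.exists_eq_add_of_le' hk
  have h1 : ∀ x, ‖iteratedFDeriv ℝ (j + 2) (fun x : E n => a / 2 * ‖x‖ ^ 2) x‖
      = ‖iteratedFDeriv ℝ j (fun _ : E n => (a • innerSL ℝ : E n →L[ℝ] E n →L[ℝ] ℝ)) x‖ := by
    intro x
    rw [← norm_iteratedFDeriv_fderiv, fderiv_quad, ← norm_iteratedFDeriv_fderiv]
    congr 2
    funext y
    exact (a • innerSL ℝ : E n →L[ℝ] E n →L[ℝ] ℝ).fderiv
  rcases Nat.eq_zero_or_pos j with rfl | hj
  · refine ⟨‖(a • innerSL ℝ : E n →L[ℝ] E n →L[ℝ] ℝ)‖, fun x => ?_⟩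
    rw [h1, norm_iteratedFDeriv_zero]
  · refine ⟨0, fun x => ?_⟩
    rw [h1, iteratedFDeriv_const_of_ne hj.ne']
    simp

theorem nice_quad {a b : ℝ} (ha : 0 < a) (hab : a ≤ b) :
    Nice (fun x : E n => a / 2 * ‖x‖ ^ 2) a b where
  c_pos := ha
  smooth := contDiff_quad a
  lower := fun x v => (qf_quad a x v).ge
  upper := fun x v => by
    rw [qf_quad]
    exact mul_le_mul_of_nonneg_right hab (sq_nonneg _)
  bdd := bdd_quad a
  even := fun x => by simp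

theorem line_quad (a : ℝ) (x v : E n) :
    (fun t : ℝ => a / 2 * ‖x + t • v‖ ^ 2)
      = fun t => a / 2 * ‖x‖ ^ 2 + (a * inner ℝ x v) * t + (a / 2 * ‖v‖ ^ 2) * t ^ 2 := by
  funext t
  rw [norm_add_sq_real, inner_smul_right, norm_smul, mul_pow, Real.norm_eq_abs, sq_abs]
  ring

theorem deriv1_quad (a : ℝ) (x v : E n) :
    deriv (fun t : ℝ => a / 2 * ‖x + t • v‖ ^ 2)
      = fun t => a * inner ℝ x v + (a * ‖v‖ ^ 2) * t := by
  rw [line_quad]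
  funext t
  have h1 : HasDerivAt (fun t : ℝ => a / 2 * ‖x‖ ^ 2 + (a * inner ℝ x v) * t
      + (a / 2 * ‖v‖ ^ 2) * t ^ 2) (0 + (a * inner ℝ x v) * 1 + (a / 2 * ‖v‖ ^ 2) * (2 * t ^ 1 * 1)) t := by
    refine (((hasDerivAt_const t _).add ((hasDerivAt_id t).const_mul _)).add
      (((hasDerivAt_id t).pow 2).const_mul _)).congr_deriv ?_
    simp
  rw [h1.deriv]
  ring

theorem deriv2_quad (a : ℝ) (x v : E n) :
    deriv (deriv (fun t : ℝ => a / 2 * ‖x + t • v‖ ^ 2)) = fun _ => a * ‖v‖ ^ 2 := by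
  rw [deriv1_quad]
  funext t
  have h1 : HasDerivAt (fun t : ℝ => a * inner ℝ x v + (a * ‖v‖ ^ 2) * t)
      (0 + (a * ‖v‖ ^ 2) * 1) t :=
    (hasDerivAt_const t _).add ((hasDerivAt_id t).const_mul _)
  rw [h1.deriv]
  ring

theorem iter3_quad (a : ℝ) (x v : E n) :
    iteratedDeriv 3 (fun t : ℝ => a / 2 * ‖x + t • v‖ ^ 2) = fun _ => 0 := by
  rw [show (3 : ℕ) = 2 + 1 from rfl, iteratedDeriv_succ, show (2 : ℕ) = 1 + 1 from rfl,
    iteratedDeriv_succ, iteratedDeriv_one, deriv2_quad]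
  funext t
  simp

theorem iter2_quad (a : ℝ) (x v : E n) :
    iteratedDeriv 2 (fun t : ℝ => a / 2 * ‖x + t • v‖ ^ 2) = fun _ => a * ‖v‖ ^ 2 := by
  rw [show (2 : ℕ) = 1 + 1 from rfl, iteratedDeriv_succ, iteratedDeriv_one, deriv2_quad]

theorem selfConc_quad {a m : ℝ} (ha : 0 ≤ a) (hm : 0 ≤ m) :
    SelfConc m (fun x : E n => a / 2 * ‖x‖ ^ 2) := by
  intro x v
  rw [iter3_quad, iter2_quad]
  simp only [abs_zero]
  positivity

theorem stmtStart : StmtStart := by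
  intro n _ k c₀ C₀ m hk hc hcC hm
  have ha : 0 < c₀ * (k + 1) / k := by positivity
  refine ⟨nice_quad ha ?_, selfConc_quad ha.le hm, by simp⟩
  gcongr

end Vale.Agent.P227.M.MM.Start102
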