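import Vale.Agent.P227.M.MM.LK618
import Vale.Agent.P227.M.Bas
import Vale.Agent.P227.M.DUAL.Mm575
import Vale.Agent.P227.M.MM.Inv
import Vale.Agent.P227.M.MM.Start102
import Vale.Agent.P227.M.MM.LIM811

/-! # P227/M, block MM: `StmtLIM → StmtMM`, and integrability. -/

open MeasureTheory Filter
open scoped Topology

namespace Vale.Agent.P227.M.MM

open Lim

theorem stmtInt : StmtInt := fun _ _ _ _ h => h.toReg.integrable_exp

theorem stmtMM_of_lim (h1 : StmtLIM) : StmtMM := by
  intro n V c C hV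
  rcases Nat.eq_zero_or_pos n with rfl | hn
  · exact ⟨_, _, mm_zero hV⟩
  · obtain ⟨M, φ, G, H, hC, hma⟩ := h1 n hn V c C hV
    have hc : 0 < c := hV.c_pos
    have hC0 : 0 < C := hc.trans_le (nice_le hn hV.toReg)
    have hM : 0 ≤ M := by
      have h2 := M_nonneg_of hC 0 (ei ⟨0, hn⟩)
      have h3 : ‖(ei ⟨0, hn⟩ : E n)‖ = 1 := by simp [ei]
      rwa [h3, mul_one] at h2
    exact DUAL575.mm_of_dual hc hC0 hM hC.grad hC.hess
      (fun y v w => by rw [hC.symm, real_inner_comm]) hC.lower hC.upper hC.lip hC.even hma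

/-- the whole left half: self-concordance, regularity of log-Laplace transforms, descent and the
conversion to `C21` give the moment map. -/
theorem stmtMM_of_blocks (hSC : StmtSC) (hR : LK.RegLL) (hD : StmtDesc) (hC : StmtToC21) : StmtMM :=
  stmtMM_of_lim (stmtLIM_of (stmtLK_of (stmtInv_of hSC hR) Vale.Agent.P227.M.MM.Start102.stmtStart hD hC stmtInt))

end Vale.Agent.P227.M.MM
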