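import Vale.Agent.P227.M.MM.Ifc
import Vale.Agent.P227.M.SC.Pol

/-! # P227/M, block MM: a nice self-concordant function is `C21` -/

open MeasureTheory Filter
open scoped Topology

namespace Vale.Agent.P227.M.MM.ToC21

open Lim

/-- the Riesz map `ℓ ↦ ∑ i, ℓ (e i) • e i` as a real continuous linear map -/
noncomputable def rz (n : ℕ) : (E n →L[ℝ] ℝ) →L[ℝ] E n :=
  ∑ i : Fin n, (ContinuousLinearMap.apply ℝ ℝ (ei i : E n)).smulRight (ei i : E n)

theorem rz_apply {n : ℕ} (l : E n →L[ℝ] ℝ) : rz n l = ∑ i, l (ei i) • (ei i : E n) := by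
  simp [rz]

theorem sum_ei {n : ℕ} (v : E n) : ∑ i, v i • (ei i : E n) = v := by
  ext j
  simp only [ei, WithLp.ofLp_sum, WithLp.ofLp_smul, Finset.sum_apply, Pi.smul_apply, smul_eq_mul,
    PiLp.single_apply]
  simp

theorem inner_ei {n : ℕ} (i : Fin n) (w : E n) : inner ℝ (ei i : E n) w = w i := by
  simp [ei, EuclideanSpace.inner_single_left]

theorem inner_rz {n : ℕ} (l : E n →L[ℝ] ℝ) (w : E n) : inner ℝ (rz n l) w = l w := by
  rw [rz_apply, sum_inner]
  conv_rhs => rw [← sum_ei w, map_sum]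
  refine Finset.sum_congr rfl fun i _ => ?_
  rw [inner_smul_left, inner_ei, map_smul, smul_eq_mul, mul_comm]
  simp

theorem norm_rz_le {n : ℕ} (l : E n →L[ℝ] ℝ) : ‖rz n l‖ ≤ ‖l‖ := by
  have h1 : ‖rz n l‖ * ‖rz n l‖ = l (rz n l) := by
    rw [← real_inner_self_eq_norm_mul_norm, inner_rz]
  have h2 : l (rz n l) ≤ ‖l‖ * ‖rz n l‖ := (le_abs_self _).trans (l.le_opNorm _)
  rcases eq_or_lt_of_le (norm_nonneg (rz n l)) with h | h
  · rw [← h]; exact norm_nonneg _
  · rw [← h1] at h2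
    exact le_of_mul_le_mul_right h2 h

theorem gradient_eq {n : ℕ} (φ : E n → ℝ) (y : E n) : gradient φ y = rz n (fderiv ℝ φ y) := by
  refine ext_inner_right ℝ fun w => ?_
  rw [inner_rz, gradient, InnerProductSpace.toDual_symm_apply]

theorem qf_hess {n : ℕ} {φ : E n → ℝ} (hφ : ContDiff ℝ 3 φ) (y v : E n) :
    qf (hess φ y) v = fderiv ℝ (fderiv ℝ φ) y v v := by
  have hd : DifferentiableAt ℝ (fderiv ℝ φ) y :=
    (SC.Pol.cd2 hφ).differentiable (by norm_num) y
  have h1 : ∀ i j, hess φ y i j = fderiv ℝ (fderiv ℝ φ) y (ei i) (ei j) := by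
    intro i j
    have h2 := SC.Pol.evalF1 hd.hasFDerivAt (ei j : E n)
    have h3 : fderiv ℝ (pd j φ) y = (fderiv ℝ (fderiv ℝ φ) y).flip (ei j) := h2.fderiv
    change fderiv ℝ (pd j φ) y (ei i) = _
    rw [h3]
    rfl
  simp only [qf, h1]
  conv_rhs => rw [← sum_ei v]
  simp only [map_sum, map_smul, _root_.sum_apply, _root_.smul_apply, smul_eq_mul]
  rw [Finset.sum_comm]
  refine Finset.sum_congr rfl fun j _ => ?_
  rw [Finset.mul_sum]
  refine Finset.sum_congr rfl fun i _ => ?_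
  ring

theorem stmtToC21 : StmtToC21 := by
  intro n hn φ a b m hN hm hsc
  have hφ : ContDiff ℝ 3 φ := by exact_mod_cast contDiff_infty.1 hN.smooth 3
  have hab : a ≤ b := nice_le hn hN.toReg
  have ha : 0 < a := hN.c_pos
  have hb : 0 < b := ha.trans_le hab
  have h2 : ∀ x v, iteratedDeriv 2 (fun t : ℝ => φ (x + t • v)) 0 = qf (hess φ x) v := by
    intro x v
    rw [SC.Pol.iter2 hφ, qf_hess hφ]
    simp
  have hlb : ∀ x v, 0 ≤ iteratedDeriv 2 (fun t : ℝ => φ (x + t • v)) 0 := by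
    intro x v
    rw [h2]
    exact le_trans (by positivity) (hN.lower x v)
  have hlip := SC.Pol.hess_lipschitz_of_sc hφ hm hb.le (fun x v => by rw [h2]; exact hN.upper x v) hlb
    (fun x v => by
      have h3 := hsc x v
      have h4 := hlb x v
      set d := iteratedDeriv 2 (fun t : ℝ => φ (x + t • v)) 0
      have h5 : (iteratedDeriv 3 (fun t : ℝ => φ (x + t • v)) 0) ^ 2 ≤ (2 * m * d ^ ((3 : ℝ) / 2)) ^ 2 := by
        rw [← sq_abs]
        exact pow_le_pow_left₀ (abs_nonneg _) h3 2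
      refine h5.trans (le_of_eq ?_)
      have h6 : (d ^ ((3 : ℝ) / 2)) ^ 2 = d ^ 3 := by
        rw [← Real.rpow_natCast, ← Real.rpow_mul h4]
        norm_num
      rw [mul_pow, h6]
      ring)
  have hd : ∀ y, HasFDerivAt (fderiv ℝ φ) (fderiv ℝ (fderiv ℝ φ) y) y := fun y =>
    ((SC.Pol.cd2 hφ).differentiable (by norm_num) y).hasFDerivAt
  refine ⟨fun y => (rz n).comp (fderiv ℝ (fderiv ℝ φ) y), ?_, ?_, ?_, ?_, ?_, hN.even⟩
  · intro y
    exact (hφ.differentiable (by norm_num) y).hasGradientAt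
  · intro y
    have h3 : (gradient φ) = fun z => rz n (fderiv ℝ φ z) := funext fun z => gradient_eq φ z
    rw [h3]
    exact (rz n).hasFDerivAt.comp y (hd y)
  · intro y v
    rw [ContinuousLinearMap.comp_apply, inner_rz, ← qf_hess hφ]
    exact hN.lower y v
  · intro y v
    rw [ContinuousLinearMap.comp_apply, inner_rz, ← qf_hess hφ]
    exact hN.upper y v
  · intro y y'
    rw [← ContinuousLinearMap.comp_sub]
    have hsq : b * Real.sqrt b = b ^ ((3 : ℝ) / 2) := by
      rw [Real.sqrt_eq_rpow, show ((3 : ℝ) / 2) = 1 + 1 / 2 by norm_num, Real.rpow_add hb, Real.rpow_one]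
    have h3 := hlip.dist_le_mul y y'
    rw [dist_eq_norm, dist_eq_norm, Real.coe_toNNReal _ (by positivity)] at h3
    refine ContinuousLinearMap.opNorm_le_bound _ (by positivity) fun v => ?_
    rw [ContinuousLinearMap.comp_apply]
    refine (norm_rz_le _).trans ?_
    refine ((fderiv ℝ (fderiv ℝ φ) y - fderiv ℝ (fderiv ℝ φ) y').le_opNorm v).trans ?_
    refine mul_le_mul_of_nonneg_right (h3.trans ?_) (norm_nonneg _)
    rw [hsq]
    have h4 : 0 ≤ m * b ^ ((3 : ℝ) / 2) * ‖y - y'‖ := by positivity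
    nlinarith

end Vale.Agent.P227.M.MM.ToC21

namespace Vale.Agent.P227.M.MM

theorem stmtToC21 : StmtToC21 := ToC21.stmtToC21

end Vale.Agent.P227.M.MM
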