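import Vale.Agent.P227.M.MM.Fin618
import Vale.Agent.P227.M.MM.ToC21
import Vale.Agent.P227.M.MM.Desc447
import Vale.Agent.P227.M.LK.RegLL570

/-! # P227/M, block MM: `StmtSC → StmtMM`. -/

namespace Vale.Agent.P227.M.MM

theorem stmtMM_of_sc_desc (hSC : StmtSC) (hD : StmtDesc) : StmtMM :=
  stmtMM_of_blocks hSC LK.H570.regLL hD stmtToC21

/-- the existence of the `C^{2,1}` moment map, from the self-concordance block alone -/
theorem stmtMM_of_sc (hSC : StmtSC) : StmtMM := stmtMM_of_sc_desc hSC stmtDesc447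

end Vale.Agent.P227.M.MM
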