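import Vale.Agent.P227.M.MM.Ifc
import Vale.Agent.P227.M.LK.DescK
import Vale.Agent.P227.M.LK.TV
import Vale.Agent.P227.M.LK.Line
import Vale.Agent.P227.M.LIM.Lim
import Vale.Agent.P227.M.Lap.LD

/-! # P227/M/MM (helper345): `StmtDesc`

Descent (`LK.Dsc.exists_KL_le`) + total variation + the law of `∇φ` at level `k`. -/

open MeasureTheory Set Filter Topology

namespace Vale.Agent.P227.M.MM.D345

variable {n : ℕ}

theorem fderiv_logLap {W : E n → ℝ} {a b : ℝ} (h : Reg W a b) (z v : E n) :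
    fderiv ℝ (logLap W) z v = Lap.tmean W z v := by
  have h1 := Lap.hasDerivAt_logLap h z v 0
  have hd : DifferentiableAt ℝ (logLap W) z := (Lap.contDiff_logLap h).differentiable (by simp) z
  have hl : HasDerivAt (fun t : ℝ => z + t • v) v 0 := by
    simpa using ((hasDerivAt_id (0 : ℝ)).smul_const v).const_add z
  have hz : z + (0 : ℝ) • v = z := by simp
  have h2 : HasDerivAt (fun t : ℝ => logLap W (z + t • v)) (fderiv ℝ (logLap W) z v) 0 := by
    have h3 : HasFDerivAt (logLap W) (fderiv ℝ (logLap W) z) (z + (0 : ℝ) • v) := by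
      rw [hz]; exact hd.hasFDerivAt
    exact h3.comp_hasDerivAt 0 hl
  have := h1.unique h2
  rw [hz] at this
  exact this.symm

theorem fderiv_phi {k : ℝ} (hk : 0 < k) {c : E n → ℝ} {A B : ℝ} (hW : Reg (fun x => k * c x) A B) (y v : E n) :
    fderiv ℝ (phiK k c) y v = Lap.tmean (fun x => k * c x) (k • y) v := by
  have hd : DifferentiableAt ℝ (logLap (fun x => k * c x)) (k • y) :=
    (Lap.contDiff_logLap hW).differentiable (by simp) _
  have h2 : HasFDerivAt (fun y : E n => (1 / k) * logLap (fun x => k * c x) (k • y))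
      ((1 / k) • ((fderiv ℝ (logLap (fun x => k * c x)) (k • y)).comp (k • ContinuousLinearMap.id ℝ (E n)))) y := by
    refine HasFDerivAt.const_mul ?_ (1 / k)
    have h3 : HasFDerivAt (fun y : E n => k • y) (k • ContinuousLinearMap.id ℝ (E n)) y := by
      exact (hasFDerivAt_id y).const_smul k
    exact hd.hasFDerivAt.comp y h3
  have h4 : phiK k c = fun y : E n => (1 / k) * logLap (fun x => k * c x) (k • y) := rfl
  rw [h4, h2.fderiv]
  simp only [ContinuousLinearMap.smul_apply, ContinuousLinearMap.comp_apply, ContinuousLinearMap.id_apply,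
    map_smul, smul_eq_mul]
  rw [fderiv_logLap hW]
  field_simp

/-- integrability of polynomial moments -/
theorem integrable_mom {W : E n → ℝ} {a b : ℝ} (h : Reg W a b) (z v : E n) (j : ℕ) :
    Integrable fun x : E n => (inner ℝ x v) ^ j * Real.exp (inner ℝ x z - W x) := by
  have h1 := Lap.integrable_lap ((Lap.expo_exp_neg h).pow (Lap.BB n) v j) (Lap.BB n) z
  refine h1.congr (Eventually.of_forall fun x => ?_)
  simp only [smul_eq_mul, Lap.BB_apply, sub_eq_add_neg, Real.exp_add]
  ring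

theorem integrable_cen {W : E n → ℝ} {a b : ℝ} (h : Reg W a b) (z v : E n) (m : ℝ) :
    Integrable fun x : E n => (inner ℝ x v - m) ^ 2 * Real.exp (inner ℝ x z - W x) := by
  have h0 := integrable_mom h z v 0
  have h1 := integrable_mom h z v 1
  have h2 := integrable_mom h z v 2
  refine ((h2.sub (h1.const_mul (2 * m))).add (h0.const_mul (m ^ 2))).congr (Eventually.of_forall fun x => ?_)
  simp only [Pi.add_apply, Pi.sub_apply, pow_zero, pow_one]
  ring

theorem inner_ei' (x : E n) (i : Fin n) : inner ℝ x (ei i : E n) = x i := by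
  simp [ei, EuclideanSpace.inner_single_right]

/-- the conditional variance -/
theorem var_le {W : E n → ℝ} {a b A : ℝ} (h : Reg W a b)
    (hH : ∀ y v, qf (hess (logLap W) y) v ≤ A * ‖v‖ ^ 2) (z : E n) (g : E n)
    (hg : ∀ i, g i = Lap.tmean W z (ei i)) :
    Integrable (fun x : E n => ‖x - g‖ ^ 2 * Real.exp (inner ℝ x z - W x)) ∧
    ∫ x : E n, ‖x - g‖ ^ 2 * Real.exp (inner ℝ x z - W x) ≤ (n * A) * ∫ x : E n, Real.exp (inner ℝ x z - W x) := by
  have hexp : ∀ x : E n, ‖x - g‖ ^ 2 * Real.exp (inner ℝ x z - W x)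
      = ∑ i, (inner ℝ x (ei i : E n) - Lap.tmean W z (ei i)) ^ 2 * Real.exp (inner ℝ x z - W x) := by
    intro x
    rw [EuclideanSpace.norm_sq_eq, Finset.sum_mul]
    refine Finset.sum_congr rfl fun i _ => ?_
    rw [← hg i, inner_ei']
    simp
  have hi : ∀ i ∈ (Finset.univ : Finset (Fin n)), Integrable fun x : E n =>
      (inner ℝ x (ei i : E n) - Lap.tmean W z (ei i)) ^ 2 * Real.exp (inner ℝ x z - W x) := fun i _ =>
    integrable_cen h z _ _
  have hZ : 0 < ∫ x : E n, Real.exp (inner ℝ x z - W x) := by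
    have h0 := integrable_mom h z 0 0
    simp only [pow_zero, one_mul] at h0
    exact integral_exp_pos h0
  constructor
  · simp_rw [hexp]
    exact integrable_finset_sum _ hi
  · simp_rw [hexp]
    rw [integral_finset_sum _ hi]
    have hb : ∀ i ∈ (Finset.univ : Finset (Fin n)),
        ∫ x : E n, (inner ℝ x (ei i : E n) - Lap.tmean W z (ei i)) ^ 2 * Real.exp (inner ℝ x z - W x)
          ≤ A * ∫ x : E n, Real.exp (inner ℝ x z - W x) := by
      intro i _
      have h1 := Lap.iteratedDeriv_two_logLap h z (ei i) 0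
      rw [LK.iteratedDeriv_two_line (Lap.contDiff_logLap h), zero_smul, add_zero] at h1
      have h2 := hH z (ei i)
      rw [h1] at h2
      have h3 : ‖(ei i : E n)‖ = 1 := by simp [ei]
      rw [h3, one_pow, mul_one] at h2
      unfold Lap.tmom at h2
      rwa [div_le_iff₀ hZ] at h2
    calc _ ≤ ∑ _i : Fin n, A * ∫ x : E n, Real.exp (inner ℝ x z - W x) := Finset.sum_le_sum hb
      _ = _ := by simp [mul_assoc]

/-- the Hessian of `logLap (k c)` from the one of `phiK` -/
theorem hessL_le {k : ℝ} (hk : 0 < k) {c : E n → ℝ} {A B : ℝ} (hφ : Reg (phiK k c) A B) (z v : E n) :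
    qf (hess (logLap (fun x => k * c x)) z) v ≤ B / k * ‖v‖ ^ 2 := by
  have h1 : logLap (fun x => k * c x) = fun z => k * phiK k c (k⁻¹ • z) := by
    funext z
    unfold phiK
    rw [smul_smul, mul_inv_cancel₀ hk.ne', one_smul]
    field_simp
  rw [h1, LK.qf_scale hφ.smooth k k⁻¹ z v]
  have h2 := hφ.upper (k⁻¹ • z) v
  have h3 : k * k⁻¹ ^ 2 = 1 / k := by field_simp
  rw [h3]
  calc 1 / k * qf (hess (phiK k c) (k⁻¹ • z)) v ≤ 1 / k * (B * ‖v‖ ^ 2) :=
        mul_le_mul_of_nonneg_left h2 (by positivity)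
    _ = _ := by ring

theorem qg_of_nice {c : E n → ℝ} {a b : ℝ} (h : Nice c a b) : LK.Dsc.Qg a b c := by
  have h1 : ∀ x, a / 2 * ‖x‖ ^ 2 ≤ c x - c 0 ∧ c x - c 0 ≤ b / 2 * ‖x‖ ^ 2 := by
    intro x
    have h2 := Lap.taylor_bounds h.toReg 0 x
    have h3 := Lap.taylor_bounds h.toReg 0 (-x)
    simp only [zero_add, map_neg, norm_neg, h.even] at h2 h3
    constructor <;> linarith [h2.1, h2.2, h3.1, h3.2]
  exact ⟨h.smooth.continuous.measurable, fun x => by linarith [(h1 x).1], fun x => by linarith [(h1 x).2]⟩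

theorem integrable_exp_neg {W : E n → ℝ} {a b : ℝ} (h : Reg W a b) : Integrable fun x : E n => Real.exp (-W x) := by
  refine (integrable_mom h 0 0 0).congr (Eventually.of_forall fun x => ?_)
  simp

theorem integrable_sq {W : E n → ℝ} {a b : ℝ} (h : Reg W a b) :
    Integrable fun x : E n => ‖x‖ ^ 2 * Real.exp (-W x) := by
  have h1 : Integrable fun x : E n => ∑ i, (inner ℝ x (ei i : E n)) ^ 2 * Real.exp (inner ℝ x (0 : E n) - W x) :=
    integrable_finset_sum _ fun i _ => integrable_mom h 0 (ei i) 2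
  refine h1.congr (Eventually.of_forall fun x => ?_)
  simp only [inner_ei', inner_zero_right, zero_sub]
  rw [← Finset.sum_mul, EuclideanSpace.norm_sq_eq]
  simp

theorem integrable_pot {W : E n → ℝ} {a b : ℝ} (h : Nice W a b) (hb : 0 ≤ b) (s : ℝ) :
    Integrable fun x : E n => (W x + s) * Real.exp (-W x) := by
  have hg := qg_of_nice h
  have h3 : Integrable fun x : E n => (|W 0| + |s|) * Real.exp (-W x) + (b / 2) * (‖x‖ ^ 2 * Real.exp (-W x)) :=
    ((integrable_exp_neg h.toReg).const_mul _).add ((integrable_sq h.toReg).const_mul _)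
  have hWc : Continuous W := h.smooth.continuous
  refine h3.mono' (by fun_prop) (Eventually.of_forall fun x => ?_)
  rw [Real.norm_eq_abs, abs_mul, abs_of_pos (Real.exp_pos _)]
  have ha := h.c_pos
  have h4 : |W x + s| ≤ |W 0| + |s| + b / 2 * ‖x‖ ^ 2 := by
    have h5 := hg.lo x
    have h6 := hg.hi x
    have h7 : 0 ≤ a / 2 * ‖x‖ ^ 2 := by positivity
    have h9 := neg_abs_le (W 0)
    have h10 := le_abs_self (W 0)
    have h9' := neg_abs_le s
    have h10' := le_abs_self s
    have h11 : 0 ≤ b / 2 * ‖x‖ ^ 2 := by positivity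
    rw [abs_le]
    constructor <;> linarith
  calc |W x + s| * Real.exp (-W x) ≤ (|W 0| + |s| + b / 2 * ‖x‖ ^ 2) * Real.exp (-W x) :=
        mul_le_mul_of_nonneg_right h4 (Real.exp_pos _).le
    _ = _ := by ring

/-- **the law of `∇φ` at level `k`** -/
theorem law {k a b σ B : ℝ} (hk : 0 < k) {c : E n → ℝ} (hc : Nice c a b) (hb : 0 < b)
    (hW : Reg (fun x => k * c x) (k * a) (k * b))
    (hσ : ∀ z v, qf (hess (logLap (fun x => k * c x)) z) v ≤ σ * ‖v‖ ^ 2)
    (hB : 0 < B) (hB2 : n * σ ≤ B ^ 2) {F : E n → ℝ} (hF : LipschitzWith 1 F) (hF1 : ∀ x, |F x| ≤ 1) :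
    |(∫ y, F (gradient (phiK k c) y) * Real.exp (-phiK k c y))
      - ∫ x, F x * Real.exp (-(k * c x - QK k c x))| ≤ B * ∫ y, Real.exp (-phiK k c y) := by
  have ha := hc.c_pos
  have hg := qg_of_nice hc
  have hφ : ContDiff ℝ (⊤ : ℕ∞) (phiK k c) := by
    have h4 : phiK k c = fun y : E n => (1 / k) * logLap (fun x => k * c x) (k • y) := rfl
    rw [h4]
    exact contDiff_const.mul ((Lap.contDiff_logLap hW).comp (contDiff_const_smul k))
  have hφc : Continuous (phiK k c) := hφ.continuous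
  have hcc : Continuous c := hc.smooth.continuous
  have hgr : Continuous (gradient (phiK k c)) := by
    have h1 : Continuous (fderiv ℝ (phiK k c)) := hφ.continuous_fderiv (by simp)
    unfold gradient
    exact (InnerProductSpace.toDual ℝ (E n)).symm.continuous.comp h1
  have hJeq : ∀ x y : E n, Real.exp (k * inner ℝ x y - k * c x - (k + 1) * LK.Dsc.phi k c y)
      = Real.exp (-((k + 1) * LK.Dsc.phi k c y)) * Real.exp (inner ℝ x (k • y) - k * c x) := by
    intro x y
    rw [← Real.exp_add, inner_smul_right]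
    congr 1
    ring
  have hgi : ∀ (y : E n) (i : Fin n), gradient (phiK k c) y i = Lap.tmean (fun x => k * c x) (k • y) (ei i) := by
    intro y i
    rw [← fderiv_phi hk hW, ← inner_ei']
    unfold gradient
    rw [InnerProductSpace.toDual_symm_apply]
  have hvar : ∀ y : E n, Integrable (fun x : E n => ‖x - gradient (phiK k c) y‖ ^ 2 *
      Real.exp (k * inner ℝ x y - k * c x - (k + 1) * LK.Dsc.phi k c y)) ∧
      ∫ x : E n, ‖x - gradient (phiK k c) y‖ ^ 2 *
      Real.exp (k * inner ℝ x y - k * c x - (k + 1) * LK.Dsc.phi k c y) ≤ B ^ 2 * Real.exp (-phiK k c y) := by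
    intro y
    obtain ⟨h1, h2⟩ := var_le hW hσ (k • y) (gradient (phiK k c) y) (hgi y)
    have h3 : ∀ x : E n, ‖x - gradient (phiK k c) y‖ ^ 2 *
      Real.exp (k * inner ℝ x y - k * c x - (k + 1) * LK.Dsc.phi k c y)
        = Real.exp (-((k + 1) * LK.Dsc.phi k c y)) * (‖x - gradient (phiK k c) y‖ ^ 2 * Real.exp (inner ℝ x (k • y) - k * c x)) := by
      intro x
      rw [hJeq]
      ring
    simp_rw [h3]
    refine ⟨h1.const_mul _, ?_⟩
    rw [integral_const_mul]
    have h4 := hg.marg_y hk ha y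
    simp_rw [hJeq] at h4
    rw [integral_const_mul] at h4
    calc Real.exp (-((k + 1) * LK.Dsc.phi k c y)) * ∫ x : E n, ‖x - gradient (phiK k c) y‖ ^ 2 * Real.exp (inner ℝ x (k • y) - k * c x)
        ≤ Real.exp (-((k + 1) * LK.Dsc.phi k c y)) * ((n * σ) * ∫ x : E n, Real.exp (inner ℝ x (k • y) - k * c x)) :=
          mul_le_mul_of_nonneg_left h2 (Real.exp_pos _).le
      _ = (n * σ) * Real.exp (-LK.Dsc.phi k c y) := by rw [← h4]; ring
      _ ≤ B ^ 2 * Real.exp (-LK.Dsc.phi k c y) := mul_le_mul_of_nonneg_right hB2 (Real.exp_pos _).le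
      _ = _ := rfl
  have hm : Continuous (fun z : E n × E n => ‖z.1 - gradient (phiK k c) z.2‖ ^ 2 *
      Real.exp (k * inner ℝ z.1 z.2 - k * c z.1 - (k + 1) * LK.Dsc.phi k c z.2)) := by
    have hφc' : Continuous (LK.Dsc.phi k c) := hφc
    fun_prop
  have h := LIM.level_push (E := E n)
    (J := fun x y => Real.exp (k * inner ℝ x y - k * c x - (k + 1) * LK.Dsc.phi k c y))
    (fun x y => (Real.exp_pos _).le) (hg.int_joint hk ha hb)
    (p := fun y => Real.exp (-phiK k c y)) (q := fun x => Real.exp (-(k * c x - QK k c x)))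
    (fun x => hg.marg_x hk ha hb x) (fun y => hg.marg_y hk ha y) (g := gradient (phiK k c)) hgr hB
    (by
      rw [integrable_prod_iff' hm.aestronglyMeasurable]
      refine ⟨Eventually.of_forall fun y => (hvar y).1, ?_⟩
      have hint := (hg.int3 hk ha hb).const_mul (B ^ 2)
      refine hint.mono' ?_ (Eventually.of_forall fun y => ?_)
      · exact hm.norm.aestronglyMeasurable.prod_swap.integral_prod_right'
      · rw [Real.norm_of_nonneg (integral_nonneg fun x => norm_nonneg _)]
        have h5 : ∀ x : E n, ‖‖x - gradient (phiK k c) y‖ ^ 2 *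
            Real.exp (k * inner ℝ x y - k * c x - (k + 1) * LK.Dsc.phi k c y)‖ = ‖x - gradient (phiK k c) y‖ ^ 2 *
            Real.exp (k * inner ℝ x y - k * c x - (k + 1) * LK.Dsc.phi k c y) := fun x =>
          Real.norm_of_nonneg (by positivity)
        simp only [h5]
        exact (hvar y).2)
    (fun y => (hvar y).2) (F := F) (L := 1) (K := 1) zero_le_one
    (fun x y => by
      have := hF.dist_le_mul x y
      simpa [Real.dist_eq, dist_eq_norm] using this) hF1
  rw [one_mul] at h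
  exact h

theorem T_shift {k : ℝ} {V : E n → ℝ} (s : ℝ) (c : E n → ℝ) :
    LK.Dsc.T k (fun x => V x + s) c = TK k V c := by
  funext x
  change (V x + s + QK k c x) / k - (V 0 + s + QK k c 0) / k = (V x + QK k c x) / k - (V 0 + QK k c 0) / k
  ring

end Vale.Agent.P227.M.MM.D345

namespace Vale.Agent.P227.M.MM

open D345

/-- **descent and the law of `∇φ`** -/
theorem stmtDesc_h345 : StmtDesc := by
  intro n hn V c₀ C₀ m k hV hm hk1 hcls hphi ε hε
  have hk : 0 < k := by linarith
  have hc : 0 < c₀ := hV.c_pos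
  have hcC : c₀ ≤ C₀ := nice_le hn hV.toReg
  have hC : 0 < C₀ := hc.trans_le hcC
  have hVi := integrable_exp_neg hV.toReg
  have hZ : 0 < ∫ x, Real.exp (-V x) := integral_exp_pos hVi
  set Z := ∫ x, Real.exp (-V x) with hZdef
  set s := Real.log Z with hs
  have hexp : ∀ x, Real.exp (-(V x + s)) = Real.exp (-V x) * Z⁻¹ := by
    intro x
    rw [neg_add, Real.exp_add, Real.exp_neg s, hs, Real.exp_log hZ]
  have hPot : LK.Dsc.Pot (fun x => V x + s) := by
    refine ⟨(hV.smooth.continuous.measurable).add_const s, ?_, ?_, ?_, ?_⟩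
    · simp_rw [hexp]
      exact hVi.mul_const _
    · simp_rw [hexp]
      rw [integral_mul_const]
      exact mul_inv_cancel₀ hZ.ne'
    · simp_rw [hexp, ← mul_assoc]
      exact (integrable_pot hV hC.le s).mul_const _
    · simp_rw [hexp, ← mul_assoc]
      exact (integrable_sq hV.toReg).mul_const _
  have ha : 0 < c₀ * (k + 1) / k := by positivity
  have hb : 0 < C₀ * (k + 1) / k := by positivity
  obtain ⟨c, ⟨i, hi⟩, hKL⟩ := LK.Dsc.exists_KL_le hk ha hb hPot (fun c => ∃ i, c = itK k c₀ V i)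
    (itK k c₀ V 0) ⟨0, rfl⟩ (fun c ⟨i, hi⟩ => ⟨i + 1, by rw [hi, T_shift]; rfl⟩)
    (fun c ⟨i, hi⟩ => hi ▸ qg_of_nice (hcls i).nice) (ε := (ε / 2) ^ 2) (by positivity)
  refine ⟨i, fun F hF hF1 => ?_⟩
  rw [← hi]
  have hnc : Nice c (c₀ * (k + 1) / k) (C₀ * (k + 1) / k) := hi ▸ (hcls i).nice
  have hphi' : Nice (phiK k c) (k / ((k + 1) * C₀)) (k / ((k + 1) * c₀)) := hi ▸ hphi i
  have hg := qg_of_nice hnc
  have hTn : LK.Dsc.Qg (c₀ * (k + 1) / k) (C₀ * (k + 1) / k) (LK.Dsc.T k (fun x => V x + s) c) := by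
    have h1 : LK.Dsc.T k (fun x => V x + s) c = itK k c₀ V (i + 1) := by rw [T_shift, hi]; rfl
    rw [h1]
    exact qg_of_nice (hcls (i + 1)).nice
  have hZk : 0 < ∫ y, Real.exp (-phiK k c y) := hg.Z_pos hk ha hb
  have hZk' : LK.Dsc.Z k c = ∫ y, Real.exp (-phiK k c y) := rfl
  set Zk := ∫ y, Real.exp (-phiK k c y) with hZkdef
  have hW : Reg (fun x => k * c x) (k * (c₀ * (k + 1) / k)) (k * (C₀ * (k + 1) / k)) := by
    simpa using LK.Reg.scale hnc.toReg hk one_ne_zero
  have hn' : (0 : ℝ) < n := by exact_mod_cast hn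
  have hlaw := law hk hnc hb hW (σ := (k / ((k + 1) * c₀)) / k) (hessL_le hk hphi'.toReg)
    (B := Real.sqrt (n / (c₀ * k))) (by positivity) (by
      rw [Real.sq_sqrt (by positivity)]
      have e1 : (n : ℝ) * (k / ((k + 1) * c₀) / k) = n / ((k + 1) * c₀) := by field_simp
      rw [e1]
      apply div_le_div_of_nonneg_left hn'.le (by positivity)
      nlinarith) hF hF1
  have hFc : Continuous F := hF.continuous
  have hKi : Integrable (fun x => (LK.Dsc.W k c x - (V x + s)) * Real.exp (-(V x + s))) := by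
    have i1 := (hg.integrable ha hb hPot).const_mul k
    have i2 := (hTn.integrable ha hb hPot).const_mul k
    have i3 := hPot.int0.const_mul (Real.log (LK.Dsc.Z k c) - (V 0 + s + LK.Dsc.Q k c 0))
    refine ((i1.sub i2).add i3).congr (Eventually.of_forall fun x => ?_)
    simp only [Pi.add_apply, Pi.sub_apply]
    unfold LK.Dsc.T LK.Dsc.W
    field_simp
    ring
  have hTV := LK.abs_sub_le_of_KL (μ := (volume : Measure (E n))) (F := F) (M := 1) (η := ε / 2) (by positivity)
    hPot.int0 (hg.integrable_exp_neg_W hk ha hb) hPot.one (hg.integral_W hk ha hb) hKi hKL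
    hFc.aestronglyMeasurable zero_le_one hF1
  have e1 : ∫ x, F x * Real.exp (-LK.Dsc.W k c x) = (∫ x, F x * Real.exp (-(k * c x - QK k c x))) / Zk := by
    rw [div_eq_mul_inv, ← integral_mul_const]
    congr 1
    funext x
    have h3 : -LK.Dsc.W k c x = -(k * c x - QK k c x) + -Real.log Zk := by
      have : LK.Dsc.W k c x = k * c x - QK k c x + Real.log Zk := rfl
      rw [this]
      ring
    rw [h3, Real.exp_add, Real.exp_neg (Real.log Zk), Real.exp_log hZk]
    ring
  have e2 : ∫ x, F x * Real.exp (-(V x + s)) = (∫ x, F x * Real.exp (-V x)) / Z := by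
    rw [div_eq_mul_inv, ← integral_mul_const]
    congr 1
    funext x
    rw [hexp]
    ring
  rw [e1, e2] at hTV
  have h5 : |(∫ y, F (gradient (phiK k c) y) * Real.exp (-phiK k c y)) / Zk
      - (∫ x, F x * Real.exp (-(k * c x - QK k c x))) / Zk| ≤ Real.sqrt (n / (c₀ * k)) := by
    rw [← sub_div, abs_div, abs_of_pos hZk, div_le_iff₀ hZk]
    exact hlaw
  have h6 := abs_sub_le ((∫ y, F (gradient (phiK k c) y) * Real.exp (-phiK k c y)) / Zk)
    ((∫ x, F x * Real.exp (-(k * c x - QK k c x))) / Zk) ((∫ x, F x * Real.exp (-V x)) / Z)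
  linarith

end Vale.Agent.P227.M.MM
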