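import Vale.Agent.P227.M.LIM.Push

/-! # P227/M/MM: Monge-Ampere limit directly in x-space, part 1 (helper464).

`Gr c g a A`: `c` is `C²` with gradient map `g`, `a ≤ D²c ≤ A` (monotone form). -/

namespace Vale.Agent.P227.M.Dir

open MeasureTheory Filter Topology
open scoped RealInnerProductSpace

variable {E : Type*} [NormedAddCommGroup E] [InnerProductSpace ℝ E]

structure Gr (c : E → ℝ) (g : E → E) (a A : ℝ) : Prop where
  a_pos : 0 < a
  der : ∀ x, HasFDerivAt c (innerSL ℝ (g x)) x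
  C1 : ContDiff ℝ 1 g
  lo : ∀ x y, a * ‖x - y‖ ^ 2 ≤ ⟪g x - g y, x - y⟫
  up : ∀ x y, ⟪g x - g y, x - y⟫ ≤ A * ‖x - y‖ ^ 2

/-- Bregman distance -/
noncomputable def Br (c : E → ℝ) (g : E → E) (z x : E) : ℝ := c x - c z - ⟪g z, x - z⟫

section basic

variable {c : E → ℝ} {g : E → E} {a A : ℝ}

theorem Gr.cont (h : Gr c g a A) : Continuous c :=
  continuous_iff_continuousAt.2 fun x => (h.der x).continuousAt

theorem Gr.gcont (h : Gr c g a A) : Continuous g := h.C1.continuous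

theorem Gr.line (h : Gr c g a A) (z v : E) (t : ℝ) :
    HasDerivAt (fun t : ℝ => c (z + t • v)) ⟪g (z + t • v), v⟫ t := by
  have h2 : HasDerivAt (fun t : ℝ => z + t • v) v t := by
    simpa using ((hasDerivAt_id t).smul_const v).const_add z
  exact (h.der (z + t • v)).comp_hasDerivAt t h2

theorem Gr.br_lo (h : Gr c g a A) (z x : E) : a / 2 * ‖x - z‖ ^ 2 ≤ Br c g z x := by
  set v := x - z with hv
  have hmono : MonotoneOn (fun t : ℝ => c (z + t • v) - t * ⟪g z, v⟫ - a / 2 * t ^ 2 * ‖v‖ ^ 2)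
      (Set.Icc 0 1) := by
    have hd : ∀ t : ℝ, HasDerivAt (fun t : ℝ => c (z + t • v) - t * ⟪g z, v⟫
        - a / 2 * t ^ 2 * ‖v‖ ^ 2) (⟪g (z + t • v), v⟫ - 1 * ⟪g z, v⟫
        - a / 2 * (2 * t) * ‖v‖ ^ 2) t := by
      intro t
      have h1 := h.line z v t
      have h2 : HasDerivAt (fun t : ℝ => t * ⟪g z, v⟫) (1 * ⟪g z, v⟫) t :=
        (hasDerivAt_id t).mul_const _
      have h3 : HasDerivAt (fun t : ℝ => a / 2 * t ^ 2 * ‖v‖ ^ 2) (a / 2 * (2 * t) * ‖v‖ ^ 2) t := by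
        have := ((hasDerivAt_pow 2 t).const_mul (a / 2)).mul_const (‖v‖ ^ 2)
        simpa using this
      exact (h1.sub h2).sub h3
    refine monotoneOn_of_deriv_nonneg (convex_Icc 0 1)
      (fun t _ => (hd t).continuousAt.continuousWithinAt)
      (fun t _ => (hd t).differentiableAt.differentiableWithinAt) ?_
    intro t ht
    rw [interior_Icc] at ht
    rw [(hd t).deriv]
    have h1 := h.lo (z + t • v) z
    rw [add_sub_cancel_left, norm_smul, Real.norm_eq_abs, abs_of_pos ht.1,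
      real_inner_smul_right, inner_sub_left] at h1
    have h2 : t * (a * t * ‖v‖ ^ 2) ≤ t * (⟪g (z + t • v), v⟫ - ⟪g z, v⟫) := by nlinarith
    have h3 := le_of_mul_le_mul_left h2 ht.1
    linarith
  have h1 := hmono (Set.left_mem_Icc.2 zero_le_one) (Set.right_mem_Icc.2 zero_le_one) zero_le_one
  simp only [zero_smul, add_zero, zero_mul, sub_zero, one_smul, one_mul, one_pow, mul_one] at h1
  have h4 : z + v = x := by rw [hv]; abel
  rw [h4] at h1
  unfold Br
  rw [← hv]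
  norm_num at h1
  linarith

theorem Gr.br_up (h : Gr c g a A) (z x : E) : Br c g z x ≤ A / 2 * ‖x - z‖ ^ 2 := by
  set v := x - z with hv
  have hmono : AntitoneOn (fun t : ℝ => c (z + t • v) - t * ⟪g z, v⟫ - A / 2 * t ^ 2 * ‖v‖ ^ 2)
      (Set.Icc 0 1) := by
    have hd : ∀ t : ℝ, HasDerivAt (fun t : ℝ => c (z + t • v) - t * ⟪g z, v⟫
        - A / 2 * t ^ 2 * ‖v‖ ^ 2) (⟪g (z + t • v), v⟫ - 1 * ⟪g z, v⟫
        - A / 2 * (2 * t) * ‖v‖ ^ 2) t := by
      intro t
      have h1 := h.line z v t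
      have h2 : HasDerivAt (fun t : ℝ => t * ⟪g z, v⟫) (1 * ⟪g z, v⟫) t :=
        (hasDerivAt_id t).mul_const _
      have h3 : HasDerivAt (fun t : ℝ => A / 2 * t ^ 2 * ‖v‖ ^ 2) (A / 2 * (2 * t) * ‖v‖ ^ 2) t := by
        have := ((hasDerivAt_pow 2 t).const_mul (A / 2)).mul_const (‖v‖ ^ 2)
        simpa using this
      exact (h1.sub h2).sub h3
    refine antitoneOn_of_deriv_nonpos (convex_Icc 0 1)
      (fun t _ => (hd t).continuousAt.continuousWithinAt)
      (fun t _ => (hd t).differentiableAt.differentiableWithinAt) ?_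
    intro t ht
    rw [interior_Icc] at ht
    rw [(hd t).deriv]
    have h1 := h.up (z + t • v) z
    rw [add_sub_cancel_left, norm_smul, Real.norm_eq_abs, abs_of_pos ht.1,
      real_inner_smul_right, inner_sub_left] at h1
    have h2 : t * (⟪g (z + t • v), v⟫ - ⟪g z, v⟫) ≤ t * (A * t * ‖v‖ ^ 2) := by nlinarith
    have h3 := le_of_mul_le_mul_left h2 ht.1
    linarith
  have h1 := hmono (Set.left_mem_Icc.2 zero_le_one) (Set.right_mem_Icc.2 zero_le_one) zero_le_one
  simp only [zero_smul, add_zero, zero_mul, sub_zero, one_smul, one_mul, one_pow, mul_one] at h1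
  have h4 : z + v = x := by rw [hv]; abel
  rw [h4] at h1
  unfold Br
  rw [← hv]
  norm_num at h1
  linarith

theorem Gr.A_pos [Nontrivial E] (h : Gr c g a A) : 0 < A := by
  obtain ⟨v, hv⟩ := exists_ne (0 : E)
  have h1 := (h.lo v 0).trans (h.up v 0)
  rw [sub_zero] at h1
  have h2 : 0 < ‖v‖ ^ 2 := by positivity
  have h3 := le_of_mul_le_mul_right h1 h2
  linarith [h.a_pos]

end basic

section gauss

variable [FiniteDimensional ℝ E] [MeasurableSpace E] [BorelSpace E]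

theorem integrable_gauss {b : ℝ} (hb : 0 < b) :
    Integrable (fun x : E => Real.exp (-b * ‖x‖ ^ 2)) := by
  have h := (GaussianFourier.integrable_cexp_neg_mul_sq_norm_add (V := E) (b := (b : ℂ))
    (by simpa using hb) 0 0).norm
  refine h.congr (Eventually.of_forall fun x => ?_)
  simp only [Complex.norm_exp]
  congr 1
  simp only [zero_mul, add_zero, neg_mul, Complex.neg_re]
  congr 1
  rw [show ((b : ℂ) * (‖x‖ : ℂ) ^ 2) = ((b * ‖x‖ ^ 2 : ℝ) : ℂ) by push_cast; ring]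
  exact Complex.ofReal_re _

/-- Gaussian integral -/
noncomputable def Gs (E : Type*) [NormedAddCommGroup E] [InnerProductSpace ℝ E] (b : ℝ) : ℝ :=
  (Real.pi / b) ^ (Module.finrank ℝ E / 2 : ℝ)

theorem integral_gauss {b : ℝ} (hb : 0 < b) (z : E) :
    ∫ x : E, Real.exp (-b * ‖x - z‖ ^ 2) = Gs E b := by
  rw [integral_sub_right_eq_self (fun x : E => Real.exp (-b * ‖x‖ ^ 2)) z]
  exact GaussianFourier.integral_rexp_neg_mul_sq_norm hb

theorem Gs_pos {b : ℝ} (hb : 0 < b) : 0 < Gs E b := by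
  unfold Gs
  exact Real.rpow_pos_of_pos (div_pos Real.pi_pos hb) _

theorem integrable_gauss' {b : ℝ} (hb : 0 < b) (z : E) :
    Integrable (fun x : E => Real.exp (-b * ‖x - z‖ ^ 2)) :=
  (integrable_gauss hb).comp_sub_right z

variable {c : E → ℝ} {g : E → E} {a A κ : ℝ}

theorem Gr.br_cont (h : Gr c g a A) (z : E) : Continuous (Br c g z) := by
  unfold Br
  have := h.cont
  fun_prop

theorem Gr.int_br (h : Gr c g a A) (hκ : 0 < κ) (z : E) :
    Integrable (fun x : E => Real.exp (-(κ * Br c g z x))) := by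
  have hb : 0 < κ * (a / 2) := mul_pos hκ (half_pos h.a_pos)
  refine (integrable_gauss' hb z).mono'
    (Real.continuous_exp.comp ((continuous_const.mul (h.br_cont z)).neg)).aestronglyMeasurable
    (Eventually.of_forall fun x => ?_)
  rw [Real.norm_eq_abs, abs_of_pos (Real.exp_pos _)]
  refine Real.exp_le_exp.2 ?_
  have h1 := mul_le_mul_of_nonneg_left (h.br_lo z x) hκ.le
  nlinarith

/-- the local partition function -/
noncomputable def Nn (κ : ℝ) (c : E → ℝ) (g : E → E) (z : E) : ℝ :=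
  ∫ x : E, Real.exp (-(κ * Br c g z x))

theorem Gr.Nn_le (h : Gr c g a A) (hκ : 0 < κ) (z : E) : Nn κ c g z ≤ Gs E (κ * (a / 2)) := by
  have hb : 0 < κ * (a / 2) := mul_pos hκ (half_pos h.a_pos)
  rw [← integral_gauss hb z]
  refine integral_mono (h.int_br hκ z) (integrable_gauss' hb z) fun x => ?_
  refine Real.exp_le_exp.2 ?_
  have h1 := mul_le_mul_of_nonneg_left (h.br_lo z x) hκ.le
  nlinarith

theorem Gr.le_Nn (h : Gr c g a A) (hA : 0 < A) (hκ : 0 < κ) (z : E) :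
    Gs E (κ * (A / 2)) ≤ Nn κ c g z := by
  have hb : 0 < κ * (A / 2) := mul_pos hκ (half_pos hA)
  rw [← integral_gauss hb z]
  refine integral_mono (integrable_gauss' hb z) (h.int_br hκ z) fun x => ?_
  refine Real.exp_le_exp.2 ?_
  have h1 := mul_le_mul_of_nonneg_left (h.br_up z x) hκ.le
  nlinarith

theorem Gr.Nn_pos (h : Gr c g a A) (hκ : 0 < κ) (z : E) : 0 < Nn κ c g z :=
  integral_exp_pos (h.int_br hκ z)

theorem sq_exp_le {b : ℝ} (hb : 0 < b) (r : ℝ) :
    r ^ 2 * Real.exp (-(2 * b) * r ^ 2) ≤ b⁻¹ * Real.exp (-b * r ^ 2) := by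
  have h1 : b * r ^ 2 ≤ Real.exp (b * r ^ 2) := by
    have := Real.add_one_le_exp (b * r ^ 2)
    linarith
  have h2 : r ^ 2 ≤ b⁻¹ * Real.exp (b * r ^ 2) := by
    rw [inv_mul_eq_div, le_div_iff₀ hb, mul_comm]
    exact h1
  calc r ^ 2 * Real.exp (-(2 * b) * r ^ 2)
      ≤ (b⁻¹ * Real.exp (b * r ^ 2)) * Real.exp (-(2 * b) * r ^ 2) :=
        mul_le_mul_of_nonneg_right h2 (Real.exp_pos _).le
    _ = b⁻¹ * Real.exp (-b * r ^ 2) := by
        rw [mul_assoc, ← Real.exp_add]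
        congr 2
        ring

/-- local average of `f` -/
noncomputable def av (κ : ℝ) (c : E → ℝ) (g : E → E) (f : E → ℝ) (z : E) : ℝ :=
  (∫ x : E, f x * Real.exp (-(κ * Br c g z x))) / Nn κ c g z

theorem Gr.int_f (h : Gr c g a A) (hκ : 0 < κ) (z : E) {f : E → ℝ} {B : ℝ} (hfc : Continuous f)
    (hfB : ∀ x, |f x| ≤ B) : Integrable (fun x : E => f x * Real.exp (-(κ * Br c g z x))) :=
  (h.int_br hκ z).bdd_mul hfc.aestronglyMeasurable (Eventually.of_forall fun x => hfB x)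

theorem Gr.abs_av_le (h : Gr c g a A) (hκ : 0 < κ) (z : E) {f : E → ℝ} {B : ℝ}
    (hfc : Continuous f) (hfB : ∀ x, |f x| ≤ B) : |av κ c g f z| ≤ B := by
  unfold av
  rw [abs_div, abs_of_pos (h.Nn_pos hκ z), div_le_iff₀ (h.Nn_pos hκ z)]
  refine (abs_integral_le_integral_abs).trans ?_
  unfold Nn
  rw [← integral_const_mul]
  refine integral_mono (h.int_f hκ z hfc hfB).abs ((h.int_br hκ z).const_mul B) fun x => ?_
  simp only [abs_mul, abs_of_pos (Real.exp_pos _)]
  exact mul_le_mul_of_nonneg_right (hfB x) (Real.exp_pos _).le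

theorem Gr.av_sub_le (h : Gr c g a A) (hA : 0 < A) (hκ : 0 < κ) (z : E) {f : E → ℝ} {B L : ℝ}
    (hfc : Continuous f) (hfB : ∀ x, |f x| ≤ B) (hL : 0 ≤ L) (hfL : ∀ x y, |f x - f y| ≤ L * ‖x - y‖)
    {η : ℝ} (hη : 0 < η) :
    |av κ c g f z - f z| ≤ L * (η + η⁻¹ * ((κ * (a / 4))⁻¹ * Gs E (κ * (a / 4))
      / Gs E (κ * (A / 2)))) := by
  have hN := h.Nn_pos hκ z
  have hb : 0 < κ * (a / 4) := mul_pos hκ (by linarith [h.a_pos])
  have e1 : av κ c g f z - f z = (∫ x : E, (f x - f z) * Real.exp (-(κ * Br c g z x)))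
      / Nn κ c g z := by
    unfold av
    rw [div_sub' hN.ne']
    congr 1
    unfold Nn
    rw [mul_comm, ← integral_const_mul, ← integral_sub (h.int_f hκ z hfc hfB)
      ((h.int_br hκ z).const_mul (f z))]
    refine integral_congr_ae (Eventually.of_forall fun x => ?_)
    simp only
    ring
  rw [e1, abs_div, abs_of_pos hN, div_le_iff₀ hN]
  refine (abs_integral_le_integral_abs).trans ?_
  have hG : 0 < Gs E (κ * (A / 2)) := Gs_pos (mul_pos hκ (half_pos hA))
  have h2 : ∀ x, |(f x - f z) * Real.exp (-(κ * Br c g z x))| ≤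
      L * (η * Real.exp (-(κ * Br c g z x)) + η⁻¹ * ((κ * (a / 4))⁻¹ *
        Real.exp (-(κ * (a / 4)) * ‖x - z‖ ^ 2))) := by
    intro x
    rw [abs_mul, abs_of_pos (Real.exp_pos _)]
    have h3 : ‖x - z‖ ≤ η + η⁻¹ * ‖x - z‖ ^ 2 := by
      have h4 : η * ‖x - z‖ ≤ η * (η + η⁻¹ * ‖x - z‖ ^ 2) := by
        have : η * (η + η⁻¹ * ‖x - z‖ ^ 2) = η ^ 2 + ‖x - z‖ ^ 2 := by
          field_simp
        rw [this]
        nlinarith [sq_nonneg (η - ‖x - z‖), sq_nonneg (η + ‖x - z‖)]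
      exact le_of_mul_le_mul_left h4 hη
    have h5 : ‖x - z‖ ^ 2 * Real.exp (-(κ * Br c g z x)) ≤
        (κ * (a / 4))⁻¹ * Real.exp (-(κ * (a / 4)) * ‖x - z‖ ^ 2) := by
      refine le_trans ?_ (sq_exp_le hb ‖x - z‖)
      refine mul_le_mul_of_nonneg_left (Real.exp_le_exp.2 ?_) (sq_nonneg _)
      have h1 := mul_le_mul_of_nonneg_left (h.br_lo z x) hκ.le
      nlinarith
    calc |f x - f z| * Real.exp (-(κ * Br c g z x))
        ≤ (L * (η + η⁻¹ * ‖x - z‖ ^ 2)) * Real.exp (-(κ * Br c g z x)) :=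
          mul_le_mul_of_nonneg_right ((hfL x z).trans (mul_le_mul_of_nonneg_left h3 hL))
            (Real.exp_pos _).le
      _ = L * (η * Real.exp (-(κ * Br c g z x)) + η⁻¹ * (‖x - z‖ ^ 2 *
            Real.exp (-(κ * Br c g z x)))) := by ring
      _ ≤ _ := by
          refine mul_le_mul_of_nonneg_left ?_ hL
          have := mul_le_mul_of_nonneg_left h5 (inv_pos.2 hη).le
          linarith
  have hi1 := h.int_br hκ z
  have hi2 := integrable_gauss' hb z
  have h6 : ∫ x : E, L * (η * Real.exp (-(κ * Br c g z x)) + η⁻¹ * ((κ * (a / 4))⁻¹ *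
        Real.exp (-(κ * (a / 4)) * ‖x - z‖ ^ 2))) =
      L * (η * Nn κ c g z + η⁻¹ * ((κ * (a / 4))⁻¹ * Gs E (κ * (a / 4)))) := by
    rw [integral_const_mul, integral_add (hi1.const_mul _) ((hi2.const_mul _).const_mul _),
      integral_const_mul, integral_const_mul, integral_const_mul, integral_gauss hb z]
    rfl
  have h7 : ∫ x : E, |(f x - f z) * Real.exp (-(κ * Br c g z x))| ≤
      L * (η * Nn κ c g z + η⁻¹ * ((κ * (a / 4))⁻¹ * Gs E (κ * (a / 4)))) := by
    rw [← h6]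
    refine integral_mono_of_nonneg (Eventually.of_forall fun x => abs_nonneg _) ?_
      (Eventually.of_forall h2)
    exact ((hi1.const_mul _).add ((hi2.const_mul _).const_mul _)).const_mul _
  refine h7.trans ?_
  rw [mul_assoc]
  refine mul_le_mul_of_nonneg_left ?_ hL
  rw [add_mul]
  refine add_le_add le_rfl ?_
  rw [mul_assoc]
  refine mul_le_mul_of_nonneg_left ?_ (inv_pos.2 hη).le
  have h8 := h.le_Nn hA hκ z
  rw [div_mul_eq_mul_div, le_div_iff₀ hG]
  exact mul_le_mul_of_nonneg_left h8 (mul_nonneg (inv_pos.2 hb).le (Gs_pos hb).le)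

end gauss

end Vale.Agent.P227.M.Dir
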