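import Vale.Agent.P227.M.MM.Dir1

/-! # P227/M/MM: Monge-Ampere limit directly in x-space, part 2 (helper464): Fubini and the change
of variables `y = ∇c(z)`. -/

namespace Vale.Agent.P227.M.Dir

open MeasureTheory Filter Topology
open scoped RealInnerProductSpace

set_option linter.unusedSectionVars false

variable {E : Type*} [NormedAddCommGroup E] [InnerProductSpace ℝ E] [FiniteDimensional ℝ E]
  [MeasurableSpace E] [BorelSpace E]

/-- `∫ exp (κ⟨x,y⟩ - κ c(x)) dx` -/
noncomputable def lapI (κ : ℝ) (c : E → ℝ) (y : E) : ℝ := ∫ x : E, Real.exp (⟪x, κ • y⟫ - κ * c x)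

noncomputable def ph (κ : ℝ) (c : E → ℝ) (y : E) : ℝ := 1 / κ * Real.log (lapI κ c y)

noncomputable def Qx (κ : ℝ) (c : E → ℝ) (x : E) : ℝ :=
  Real.log (∫ y : E, Real.exp (⟪y, κ • x⟫ - (κ + 1) * ph κ c y))

variable {c : E → ℝ} {g : E → E} {a A κ : ℝ}

theorem lap_id (κ : ℝ) (c : E → ℝ) (g : E → E) (z x : E) :
    ⟪x, κ • g z⟫ - κ * c x = κ * (⟪z, g z⟫ - c z) + -(κ * Br c g z x) := by
  unfold Br
  rw [real_inner_smul_right, inner_sub_right, real_inner_comm (g z) x, real_inner_comm (g z) z]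
  ring

theorem Gr.surj (h : Gr c g a A) : Function.Surjective g :=
  LIM.surjective_of_mono h.a_pos h.C1 h.lo

theorem Gr.int_lap_g (h : Gr c g a A) (hκ : 0 < κ) (z : E) :
    Integrable (fun x : E => Real.exp (⟪x, κ • g z⟫ - κ * c x)) := by
  simp_rw [lap_id κ c g z, Real.exp_add]
  exact (h.int_br hκ z).const_mul _

theorem Gr.int_lap (h : Gr c g a A) (hκ : 0 < κ) (y : E) :
    Integrable (fun x : E => Real.exp (⟪x, κ • y⟫ - κ * c x)) := by
  obtain ⟨z, rfl⟩ := h.surj y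
  exact h.int_lap_g hκ z

theorem Gr.lapI_g (κ : ℝ) (c : E → ℝ) (g : E → E) (z : E) :
    lapI κ c (g z) = Real.exp (κ * (⟪z, g z⟫ - c z)) * Nn κ c g z := by
  unfold lapI Nn
  rw [← integral_const_mul]
  refine integral_congr_ae (Eventually.of_forall fun x => ?_)
  simp only
  rw [lap_id κ c g z, Real.exp_add]

theorem Gr.lapI_pos (h : Gr c g a A) (hκ : 0 < κ) (y : E) : 0 < lapI κ c y :=
  integral_exp_pos (h.int_lap hκ y)

theorem Gr.exp_ph (h : Gr c g a A) (hκ : 0 < κ) (y : E) :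
    Real.exp (κ * ph κ c y) = lapI κ c y := by
  unfold ph
  rw [← mul_assoc, mul_one_div_cancel hκ.ne', one_mul, Real.exp_log (h.lapI_pos hκ y)]

theorem Gr.ph_g (h : Gr c g a A) (hκ : 0 < κ) (z : E) :
    ph κ c (g z) = ⟪z, g z⟫ - c z + 1 / κ * Real.log (Nn κ c g z) := by
  unfold ph
  rw [Gr.lapI_g, Real.log_mul (Real.exp_pos _).ne' (h.Nn_pos hκ z).ne', Real.log_exp]
  field_simp

theorem Gr.leg_ge (h : Gr c g a A) (h0 : c 0 = 0) (z : E) :
    a / 2 * ‖z‖ ^ 2 ≤ ⟪z, g z⟫ - c z := by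
  have h1 := h.br_lo z 0
  unfold Br at h1
  rw [zero_sub, norm_neg, inner_neg_right, h0, real_inner_comm] at h1
  linarith

theorem Gr.c_le (h : Gr c g a A) (h0 : c 0 = 0) (g0 : g 0 = 0) (x : E) :
    c x ≤ A / 2 * ‖x‖ ^ 2 := by
  have h1 := h.br_up 0 x
  unfold Br at h1
  rw [sub_zero, g0, inner_zero_left, h0] at h1
  linarith

theorem sq_id {b : ℝ} (hb : 0 < b) (x y : E) :
    ⟪x, y⟫ - b * ‖x‖ ^ 2 = ‖y‖ ^ 2 / (4 * b) + -b * ‖x - (2 * b)⁻¹ • y‖ ^ 2 := by
  rw [norm_sub_sq_real, norm_smul, real_inner_smul_right, mul_pow, Real.norm_eq_abs, sq_abs]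
  field_simp
  ring

theorem int_gauss_lin {b : ℝ} (hb : 0 < b) (y : E) :
    Integrable (fun x : E => Real.exp (⟪x, y⟫ - b * ‖x‖ ^ 2)) := by
  simp_rw [sq_id hb, Real.exp_add]
  exact (integrable_gauss' hb _).const_mul _

theorem integral_gauss_lin {b : ℝ} (hb : 0 < b) (y : E) :
    ∫ x : E, Real.exp (⟪x, y⟫ - b * ‖x‖ ^ 2) = Real.exp (‖y‖ ^ 2 / (4 * b)) * Gs E b := by
  simp_rw [sq_id hb, Real.exp_add]
  rw [integral_const_mul, integral_gauss hb]

theorem Gr.lapI_ge (h : Gr c g a A) (hA : 0 < A) (hκ : 0 < κ) (h0 : c 0 = 0) (g0 : g 0 = 0)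
    (y : E) : Real.exp (κ * (‖y‖ ^ 2 / (2 * A))) * Gs E (κ * (A / 2)) ≤ lapI κ c y := by
  have hb : 0 < κ * (A / 2) := mul_pos hκ (half_pos hA)
  have h1 := integral_gauss_lin hb (κ • y)
  have h2 : ‖κ • y‖ ^ 2 / (4 * (κ * (A / 2))) = κ * (‖y‖ ^ 2 / (2 * A)) := by
    rw [norm_smul, mul_pow, Real.norm_eq_abs, sq_abs]
    field_simp
    ring
  rw [h2] at h1
  rw [← h1]
  refine integral_mono (int_gauss_lin hb _) (h.int_lap hκ y) fun x => Real.exp_le_exp.2 ?_
  have h3 := mul_le_mul_of_nonneg_left (h.c_le h0 g0 x) hκ.le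
  nlinarith

theorem Gr.ph_ge (h : Gr c g a A) (hA : 0 < A) (hκ : 0 < κ) (h0 : c 0 = 0) (g0 : g 0 = 0)
    (y : E) : ‖y‖ ^ 2 / (2 * A) + 1 / κ * Real.log (Gs E (κ * (A / 2))) ≤ ph κ c y := by
  have hb : 0 < κ * (A / 2) := mul_pos hκ (half_pos hA)
  have hG := Gs_pos (E := E) hb
  have h1 := Real.log_le_log (mul_pos (Real.exp_pos _) hG) (h.lapI_ge hA hκ h0 g0 y)
  rw [Real.log_mul (Real.exp_pos _).ne' hG.ne', Real.log_exp] at h1
  unfold ph
  have h2 := mul_le_mul_of_nonneg_left h1 (one_div_pos.2 hκ).le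
  refine le_trans (le_of_eq ?_) h2
  field_simp

theorem Gr.ph_meas (h : Gr c g a A) : Measurable (ph κ c) := by
  have h1 : StronglyMeasurable (fun p : E × E => Real.exp (⟪p.2, κ • p.1⟫ - κ * c p.2)) := by
    have := h.cont
    exact Continuous.stronglyMeasurable (by fun_prop)
  have h2 : StronglyMeasurable (fun y : E => ∫ x : E, Real.exp (⟪x, κ • y⟫ - κ * c x)) :=
    h1.integral_prod_right'
  exact (Real.measurable_log.comp h2.measurable).const_mul (1 / κ)

theorem Gr.int_Q (h : Gr c g a A) (hA : 0 < A) (hκ : 0 < κ) (h0 : c 0 = 0) (g0 : g 0 = 0)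
    (x : E) : Integrable (fun y : E => Real.exp (⟪y, κ • x⟫ - (κ + 1) * ph κ c y)) := by
  have hb : 0 < (κ + 1) / (2 * A) := by positivity
  refine ((int_gauss_lin hb (κ • x)).const_mul
    (Real.exp (-((κ + 1) * (1 / κ * Real.log (Gs E (κ * (A / 2)))))))).mono' ?_ ?_
  · have hm := h.ph_meas (κ := κ)
    have h1 : Measurable (fun y : E => ⟪y, κ • x⟫) := (by fun_prop : Continuous fun y : E => ⟪y, κ • x⟫).measurable
    exact (Real.measurable_exp.comp (h1.sub (hm.const_mul _))).aestronglyMeasurable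
  · refine Eventually.of_forall fun y => ?_
    rw [Real.norm_eq_abs, abs_of_pos (Real.exp_pos _), ← Real.exp_add]
    refine Real.exp_le_exp.2 ?_
    have h1 := mul_le_mul_of_nonneg_left (h.ph_ge hA hκ h0 g0 y) (by linarith : 0 ≤ κ + 1)
    have h2 : (κ + 1) / (2 * A) * ‖y‖ ^ 2 = (κ + 1) * (‖y‖ ^ 2 / (2 * A)) := by
      field_simp
    rw [h2]
    linarith

theorem Gr.exp_Q (h : Gr c g a A) (hA : 0 < A) (hκ : 0 < κ) (h0 : c 0 = 0) (g0 : g 0 = 0)
    (x : E) : Real.exp (Qx κ c x) = ∫ y : E, Real.exp (⟪y, κ • x⟫ - (κ + 1) * ph κ c y) :=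
  Real.exp_log (integral_exp_pos (h.int_Q hA hκ h0 g0 x))

theorem Gr.int_exp_ph (h : Gr c g a A) (hA : 0 < A) (hκ : 0 < κ) (h0 : c 0 = 0) (g0 : g 0 = 0) :
    Integrable (fun y : E => Real.exp (-ph κ c y)) := by
  have hb : 0 < 1 / (2 * A) := by positivity
  refine ((integrable_gauss (E := E) hb).const_mul
    (Real.exp (-(1 / κ * Real.log (Gs E (κ * (A / 2))))))).mono' ?_ ?_
  · exact (Real.measurable_exp.comp (h.ph_meas (κ := κ)).neg).aestronglyMeasurable
  · refine Eventually.of_forall fun y => ?_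
    rw [Real.norm_eq_abs, abs_of_pos (Real.exp_pos _), ← Real.exp_add]
    refine Real.exp_le_exp.2 ?_
    have h1 := h.ph_ge hA hκ h0 g0 y
    have h2 : -(1 / (2 * A)) * ‖y‖ ^ 2 = -(‖y‖ ^ 2 / (2 * A)) := by
      field_simp
    rw [h2]
    linarith

/-- the joint kernel -/
noncomputable def Kk (κ : ℝ) (c : E → ℝ) (x y : E) : ℝ :=
  Real.exp (⟪x, κ • y⟫ - κ * c x) * Real.exp (-((κ + 1) * ph κ c y))

theorem Gr.int_Kk_x (h : Gr c g a A) (hκ : 0 < κ) (y : E) :
    ∫ x : E, Kk κ c x y = Real.exp (-ph κ c y) := by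
  unfold Kk
  rw [integral_mul_const]
  change lapI κ c y * _ = _
  rw [← h.exp_ph hκ y, ← Real.exp_add]
  congr 1
  ring

theorem Gr.integrable_Kk (h : Gr c g a A) (hA : 0 < A) (hκ : 0 < κ) (h0 : c 0 = 0)
    (g0 : g 0 = 0) : Integrable (fun p : E × E => Kk κ c p.1 p.2) (volume.prod volume) := by
  have hm : Measurable (fun p : E × E => Kk κ c p.1 p.2) := by
    unfold Kk
    have h1 : Measurable (fun p : E × E => Real.exp (⟪p.1, κ • p.2⟫ - κ * c p.1)) := by
      have := h.cont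
      exact Continuous.measurable (by fun_prop)
    exact h1.mul (Real.measurable_exp.comp (((h.ph_meas (κ := κ)).comp measurable_snd).const_mul _).neg)
  rw [integrable_prod_iff' hm.aestronglyMeasurable]
  refine ⟨Eventually.of_forall fun y => by
    simpa only [Kk] using (h.int_lap hκ y).mul_const (Real.exp (-((κ + 1) * ph κ c y))), ?_⟩
  refine (h.int_exp_ph hA hκ h0 g0).congr (Eventually.of_forall fun y => ?_)
  simp only
  rw [← h.int_Kk_x hκ y]
  refine integral_congr_ae (Eventually.of_forall fun x => ?_)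
  simp only [Kk]
  rw [Real.norm_eq_abs, abs_of_pos (mul_pos (Real.exp_pos _) (Real.exp_pos _))]

/-- Fubini and the change of variables `y = g z` -/
theorem Gr.key (h : Gr c g a A) (hA : 0 < A) (hκ : 0 < κ) (h0 : c 0 = 0) (g0 : g 0 = 0)
    {f : E → ℝ} {B : ℝ} (hfc : Continuous f) (hfB : ∀ x, |f x| ≤ B) :
    ∫ x : E, f x * Real.exp (-(κ * c x - Qx κ c x)) =
      ∫ z : E, Real.exp (-ph κ c (g z)) * av κ c g f z * (fderiv ℝ g z).det := by
  have hI : Integrable (fun p : E × E => f p.1 * Kk κ c p.1 p.2) (volume.prod volume) :=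
    (h.integrable_Kk hA hκ h0 g0).bdd_mul (hfc.comp continuous_fst).aestronglyMeasurable
      (Eventually.of_forall fun p => hfB p.1)
  have e1 : ∫ x : E, f x * Real.exp (-(κ * c x - Qx κ c x)) =
      ∫ x : E, ∫ y : E, f x * Kk κ c x y := by
    refine integral_congr_ae (Eventually.of_forall fun x => ?_)
    simp only
    rw [integral_const_mul]
    congr 1
    rw [show -(κ * c x - Qx κ c x) = -(κ * c x) + Qx κ c x by ring, Real.exp_add,
      h.exp_Q hA hκ h0 g0 x, ← integral_const_mul]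
    refine integral_congr_ae (Eventually.of_forall fun y => ?_)
    simp only [Kk]
    rw [← Real.exp_add, ← Real.exp_add]
    congr 1
    rw [real_inner_smul_right, real_inner_smul_right, real_inner_comm]
    ring
  rw [e1, integral_integral_swap hI, LIM.integral_comp_mul_det h.a_pos h.C1 h.lo]
  refine integral_congr_ae (Eventually.of_forall fun z => ?_)
  simp only
  congr 1
  have e2 : ∫ x : E, f x * Kk κ c x (g z) =
      Real.exp (κ * (⟪z, g z⟫ - c z)) * Real.exp (-((κ + 1) * ph κ c (g z))) *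
        ∫ x : E, f x * Real.exp (-(κ * Br c g z x)) := by
    rw [← integral_const_mul]
    refine integral_congr_ae (Eventually.of_forall fun x => ?_)
    simp only [Kk]
    rw [lap_id κ c g z, Real.exp_add]
    ring
  rw [e2]
  have hN := h.Nn_pos hκ z
  have e3 : Real.exp (κ * (⟪z, g z⟫ - c z)) * Real.exp (-((κ + 1) * ph κ c (g z))) =
      Real.exp (-ph κ c (g z)) / Nn κ c g z := by
    rw [eq_div_iff hN.ne', mul_right_comm, ← Gr.lapI_g, ← h.exp_ph hκ, ← Real.exp_add]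
    congr 1
    ring
  rw [e3]
  unfold av
  ring

theorem Gr.key1 (h : Gr c g a A) :
    ∫ y : E, Real.exp (-ph κ c y) =
      ∫ z : E, Real.exp (-ph κ c (g z)) * (fderiv ℝ g z).det :=
  LIM.integral_comp_mul_det h.a_pos h.C1 h.lo _

theorem Gr.Nn_meas (h : Gr c g a A) : Measurable (Nn κ c g) := by
  have h1 : StronglyMeasurable (fun p : E × E => Real.exp (-(κ * Br c g p.1 p.2))) := by
    have := h.cont
    have := h.gcont
    refine Continuous.stronglyMeasurable ?_
    unfold Br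
    fun_prop
  exact (h1.integral_prod_right').measurable

theorem Gr.av_meas (h : Gr c g a A) {f : E → ℝ} (hfc : Continuous f) :
    Measurable (av κ c g f) := by
  have h1 : StronglyMeasurable (fun p : E × E => f p.2 * Real.exp (-(κ * Br c g p.1 p.2))) := by
    have := h.cont
    have := h.gcont
    refine Continuous.stronglyMeasurable ?_
    unfold Br
    fun_prop
  exact (h1.integral_prod_right').measurable.div h.Nn_meas

end Vale.Agent.P227.M.Dir
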