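import Vale.Agent.P227.M.MM.Dir2

/-! # P227/M/MM: Monge-Ampere limit directly in x-space, part 3 (helper464): the limit. -/

namespace Vale.Agent.P227.M.Dir

open MeasureTheory Filter Topology
open scoped RealInnerProductSpace

set_option linter.unusedSectionVars false

variable {E : Type*} [NormedAddCommGroup E] [InnerProductSpace ℝ E] [FiniteDimensional ℝ E]
  [MeasurableSpace E] [BorelSpace E]

theorem tendsto_log_Gs {κ : ℕ → ℝ} (hκ : Tendsto κ atTop atTop) {b : ℝ} (hb : 0 < b) :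
    Tendsto (fun i => 1 / κ i * Real.log (Gs E (κ i * b))) atTop (𝓝 0) := by
  have h1 : Tendsto (fun x : ℝ => 1 / x * Real.log (Gs E (x * b))) atTop (𝓝 0) := by
    have h2 : Tendsto (fun x : ℝ => Real.log x / x) atTop (𝓝 0) := by
      have := Real.isLittleO_log_id_atTop.tendsto_div_nhds_zero
      simpa using this
    have h3 : Tendsto (fun x : ℝ => 1 / x) atTop (𝓝 0) := by
      simpa using tendsto_inv_atTop_zero (𝕜 := ℝ)
    have h4 : Tendsto (fun x : ℝ => (Module.finrank ℝ E / 2 : ℝ) * (Real.log (Real.pi / b) * (1 / x)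
        - Real.log x / x)) atTop (𝓝 ((Module.finrank ℝ E / 2 : ℝ) *
          (Real.log (Real.pi / b) * 0 - 0))) := ((h3.const_mul _).sub h2).const_mul _
    rw [mul_zero, sub_zero, mul_zero] at h4
    refine h4.congr' ?_
    filter_upwards [eventually_gt_atTop (0 : ℝ)] with x hx
    unfold Gs
    rw [Real.log_rpow (div_pos Real.pi_pos (mul_pos hx hb)),
      show Real.pi / (x * b) = (Real.pi / b) / x by field_simp,
      Real.log_div (div_pos Real.pi_pos hb).ne' hx.ne']
    ring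
  exact h1.comp hκ

theorem Gs_ratio {b b' x : ℝ} (hb : 0 < b) (hb' : 0 < b') (hx : 0 < x) :
    Gs E (x * b) / Gs E (x * b') = (b' / b) ^ (Module.finrank ℝ E / 2 : ℝ) := by
  unfold Gs
  rw [← Real.div_rpow (div_pos Real.pi_pos (mul_pos hx hb)).le
    (div_pos Real.pi_pos (mul_pos hx hb')).le]
  congr 1
  field_simp

section lim

variable {c : ℕ → E → ℝ} {g : ℕ → E → E} {a A : ℝ} {κ : ℕ → ℝ} {ψ : E → ℝ} {h : E → E} {d : E → ℝ}
  {Dm : ℝ}

/-- convergence of the local averages -/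
theorem tendsto_av (hG : ∀ i, Gr (c i) (g i) a A) (hA : 0 < A) (hκ0 : ∀ i, 0 < κ i)
    (hκ : Tendsto κ atTop atTop) {f : E → ℝ} {B L : ℝ} (hfc : Continuous f)
    (hfB : ∀ x, |f x| ≤ B) (hL : 0 ≤ L) (hfL : ∀ x y, |f x - f y| ≤ L * ‖x - y‖) (z : E) :
    Tendsto (fun i => av (κ i) (c i) (g i) f z) atTop (𝓝 (f z)) := by
  have ha := (hG 0).a_pos
  obtain ⟨R, hR⟩ : ∃ R : ℝ, R = (A / 2 / (a / 4)) ^ (Module.finrank ℝ E / 2 : ℝ) := ⟨_, rfl⟩
  have hb : ∀ i, |av (κ i) (c i) (g i) f z - f z| ≤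
      L * (Real.sqrt (κ i))⁻¹ * (1 + (a / 4)⁻¹ * R) := by
    intro i
    have hs : 0 < Real.sqrt (κ i) := Real.sqrt_pos.2 (hκ0 i)
    have h1 := (hG i).av_sub_le hA (hκ0 i) z hfc hfB hL hfL (inv_pos.2 hs)
    refine h1.trans (le_of_eq ?_)
    rw [mul_div_assoc, Gs_ratio (by linarith) (by linarith) (hκ0 i), ← hR, inv_inv, mul_inv]
    have h2 : (κ i)⁻¹ = (Real.sqrt (κ i))⁻¹ * (Real.sqrt (κ i))⁻¹ := by
      rw [← mul_inv, Real.mul_self_sqrt (hκ0 i).le]
    rw [h2]
    field_simp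
  rw [tendsto_iff_norm_sub_tendsto_zero]
  have h3 : Tendsto (fun i => L * (Real.sqrt (κ i))⁻¹ * (1 + (a / 4)⁻¹ * R)) atTop (𝓝 0) := by
    have h4 : Tendsto (fun i => (Real.sqrt (κ i))⁻¹) atTop (𝓝 0) :=
      tendsto_inv_atTop_zero.comp (Real.tendsto_sqrt_atTop.comp hκ)
    have := (h4.const_mul L).mul_const (1 + (a / 4)⁻¹ * R)
    simpa using this
  exact squeeze_zero (fun i => norm_nonneg _) hb h3

/-- bounds for `(1/κ) log N` -/
theorem Gr.log_N_mem {c : E → ℝ} {g : E → E} {a A κ : ℝ} (h : Gr c g a A) (hA : 0 < A)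
    (hκ : 0 < κ) (z : E) :
    1 / κ * Real.log (Gs E (κ * (A / 2))) ≤ 1 / κ * Real.log (Nn κ c g z) ∧
      1 / κ * Real.log (Nn κ c g z) ≤ 1 / κ * Real.log (Gs E (κ * (a / 2))) := by
  have h1 := h.le_Nn hA hκ z
  have h2 := h.Nn_le hκ z
  have hb : 0 < κ * (A / 2) := mul_pos hκ (half_pos hA)
  exact ⟨mul_le_mul_of_nonneg_left (Real.log_le_log (Gs_pos hb) h1) (one_div_pos.2 hκ).le,
    mul_le_mul_of_nonneg_left (Real.log_le_log (h.Nn_pos hκ z) h2) (one_div_pos.2 hκ).le⟩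

theorem tendsto_ph (hG : ∀ i, Gr (c i) (g i) a A) (hA : 0 < A) (hκ0 : ∀ i, 0 < κ i)
    (hκ : Tendsto κ atTop atTop) (z : E) (hc : Tendsto (fun i => c i z) atTop (𝓝 (ψ z)))
    (hg : Tendsto (fun i => g i z) atTop (𝓝 (h z))) :
    Tendsto (fun i => ph (κ i) (c i) (g i z)) atTop (𝓝 (⟪z, h z⟫ - ψ z)) := by
  have ha := (hG 0).a_pos
  have h1 : Tendsto (fun i => 1 / κ i * Real.log (Nn (κ i) (c i) (g i) z)) atTop (𝓝 0) :=
    tendsto_of_tendsto_of_tendsto_of_le_of_le (tendsto_log_Gs (E := E) hκ (half_pos hA))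
      (tendsto_log_Gs (E := E) hκ (half_pos ha))
      (fun i => ((hG i).log_N_mem hA (hκ0 i) z).1) (fun i => ((hG i).log_N_mem hA (hκ0 i) z).2)
  have h2 : Tendsto (fun i => ⟪z, g i z⟫ - c i z) atTop (𝓝 (⟪z, h z⟫ - ψ z)) :=
    (tendsto_const_nhds.inner hg).sub hc
  have h3 := h2.add h1
  rw [add_zero] at h3
  refine h3.congr fun i => ?_
  rw [(hG i).ph_g (hκ0 i)]

/-- the main limit -/
theorem tendsto_main (hG : ∀ i, Gr (c i) (g i) a A) (hA : 0 < A) (hκ0 : ∀ i, 0 < κ i)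
    (hκ : Tendsto κ atTop atTop) (h0 : ∀ i, c i 0 = 0)
    (hc : ∀ z, Tendsto (fun i => c i z) atTop (𝓝 (ψ z)))
    (hg : ∀ z, Tendsto (fun i => g i z) atTop (𝓝 (h z)))
    (hd : ∀ z, Tendsto (fun i => (fderiv ℝ (g i) z).det) atTop (𝓝 (d z)))
    (hDm : ∀ i z, |(fderiv ℝ (g i) z).det| ≤ Dm)
    {F : ℕ → E → ℝ} {f : E → ℝ} {B : ℝ} (hFm : ∀ i, Measurable (F i))
    (hFB : ∀ i z, |F i z| ≤ B) (hF : ∀ z, Tendsto (fun i => F i z) atTop (𝓝 (f z))) :
    Tendsto (fun i => ∫ z : E, Real.exp (-ph (κ i) (c i) (g i z)) * F i z *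
      (fderiv ℝ (g i) z).det) atTop
      (𝓝 (∫ z : E, Real.exp (-(⟪z, h z⟫ - ψ z)) * f z * d z)) := by
  have ha := (hG 0).a_pos
  have hB : 0 ≤ B := (abs_nonneg _).trans (hFB 0 0)
  have hDm0 : 0 ≤ Dm := (abs_nonneg _).trans (hDm 0 0)
  have hev : ∀ᶠ i in atTop, -1 ≤ 1 / κ i * Real.log (Gs E (κ i * (A / 2))) := by
    have := tendsto_log_Gs (E := E) hκ (half_pos hA)
    exact (this.eventually (eventually_gt_nhds (by norm_num : (-1 : ℝ) < 0))).mono
      fun i hi => hi.le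
  refine tendsto_integral_filter_of_dominated_convergence
    (fun z => Real.exp 1 * B * Dm * Real.exp (-(a / 2) * ‖z‖ ^ 2)) ?_ ?_ ?_ ?_
  · refine Eventually.of_forall fun i => ?_
    have h1 : Measurable fun z : E => ph (κ i) (c i) (g i z) :=
      ((hG i).ph_meas (κ := κ i)).comp (hG i).gcont.measurable
    have h2 : Measurable fun z : E => (fderiv ℝ (g i) z).det :=
      (ContinuousLinearMap.continuous_det.comp
        ((hG i).C1.continuous_fderiv (by norm_num))).measurable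
    exact (((Real.measurable_exp.comp h1.neg).mul (hFm i)).mul h2).aestronglyMeasurable
  · filter_upwards [hev] with i hi
    refine Eventually.of_forall fun z => ?_
    rw [Real.norm_eq_abs, abs_mul, abs_mul, abs_of_pos (Real.exp_pos _)]
    have h1 : Real.exp (-ph (κ i) (c i) (g i z)) ≤ Real.exp 1 * Real.exp (-(a / 2) * ‖z‖ ^ 2) := by
      rw [← Real.exp_add]
      refine Real.exp_le_exp.2 ?_
      rw [(hG i).ph_g (hκ0 i)]
      have h2 := (hG i).leg_ge (h0 i) z
      have h3 := ((hG i).log_N_mem hA (hκ0 i) z).1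
      linarith
    calc Real.exp (-ph (κ i) (c i) (g i z)) * |F i z| * |(fderiv ℝ (g i) z).det|
        ≤ (Real.exp 1 * Real.exp (-(a / 2) * ‖z‖ ^ 2)) * B * Dm := by
          have h4 := hFB i z
          have h5 := hDm i z
          gcongr
      _ = _ := by ring
  · exact (integrable_gauss (half_pos ha)).const_mul _
  · refine Eventually.of_forall fun z => ?_
    have h1 := tendsto_ph hG hA hκ0 hκ z (hc z) (hg z)
    exact (((Real.continuous_exp.tendsto _).comp h1.neg).mul (hF z)).mul (hd z)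

/-- the density of the limit law -/
theorem tendsto_law (hG : ∀ i, Gr (c i) (g i) a A) (hA : 0 < A) (hκ0 : ∀ i, 0 < κ i)
    (hκ : Tendsto κ atTop atTop) (h0 : ∀ i, c i 0 = 0) (g0 : ∀ i, g i 0 = 0)
    (hc : ∀ z, Tendsto (fun i => c i z) atTop (𝓝 (ψ z)))
    (hg : ∀ z, Tendsto (fun i => g i z) atTop (𝓝 (h z)))
    (hd : ∀ z, Tendsto (fun i => (fderiv ℝ (g i) z).det) atTop (𝓝 (d z)))
    (hDm : ∀ i z, |(fderiv ℝ (g i) z).det| ≤ Dm)
    {f : E → ℝ} {B L : ℝ} (hfc : Continuous f)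
    (hfB : ∀ x, |f x| ≤ B) (hL : 0 ≤ L) (hfL : ∀ x y, |f x - f y| ≤ L * ‖x - y‖) :
    Tendsto (fun i => ∫ x : E, f x * Real.exp (-(κ i * c i x - Qx (κ i) (c i) x))) atTop
      (𝓝 (∫ z : E, Real.exp (-(⟪z, h z⟫ - ψ z)) * f z * d z)) := by
  refine (tendsto_main hG hA hκ0 hκ h0 hc hg hd hDm (F := fun i => av (κ i) (c i) (g i) f)
    (fun i => (hG i).av_meas hfc) (fun i z => (hG i).abs_av_le (hκ0 i) z hfc hfB)
    (fun z => tendsto_av hG hA hκ0 hκ hfc hfB hL hfL z)).congr fun i => ?_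
  rw [(hG i).key hA (hκ0 i) (h0 i) (g0 i) hfc hfB]

theorem tendsto_Z (hG : ∀ i, Gr (c i) (g i) a A) (hA : 0 < A) (hκ0 : ∀ i, 0 < κ i)
    (hκ : Tendsto κ atTop atTop) (h0 : ∀ i, c i 0 = 0)
    (hc : ∀ z, Tendsto (fun i => c i z) atTop (𝓝 (ψ z)))
    (hg : ∀ z, Tendsto (fun i => g i z) atTop (𝓝 (h z)))
    (hd : ∀ z, Tendsto (fun i => (fderiv ℝ (g i) z).det) atTop (𝓝 (d z)))
    (hDm : ∀ i z, |(fderiv ℝ (g i) z).det| ≤ Dm) :
    Tendsto (fun i => ∫ y : E, Real.exp (-ph (κ i) (c i) y)) atTop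
      (𝓝 (∫ z : E, Real.exp (-(⟪z, h z⟫ - ψ z)) * d z)) := by
  have h1 := tendsto_main hG hA hκ0 hκ h0 hc hg hd hDm (F := fun _ _ => (1 : ℝ)) (f := fun _ => 1)
    (B := 1) (fun i => measurable_const) (fun i z => by simp) (fun z => tendsto_const_nhds)
  simp only [mul_one] at h1
  refine h1.congr fun i => ?_
  rw [(hG i).key1]

/-- the limit equation: if the laws `e^{-(κc-Q)}/Z` converge to `e^{-V}/ZV` in total variation,
then `e^{-V}/ZV = e^{-(<z,h>-ψ)} d / Z` everywhere -/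
theorem limit_eq (hG : ∀ i, Gr (c i) (g i) a A) (hA : 0 < A) (hκ0 : ∀ i, 0 < κ i)
    (hκ : Tendsto κ atTop atTop) (h0 : ∀ i, c i 0 = 0) (g0 : ∀ i, g i 0 = 0)
    (hc : ∀ z, Tendsto (fun i => c i z) atTop (𝓝 (ψ z)))
    (hg : ∀ z, Tendsto (fun i => g i z) atTop (𝓝 (h z)))
    (hd : ∀ z, Tendsto (fun i => (fderiv ℝ (g i) z).det) atTop (𝓝 (d z)))
    (hDm : ∀ i z, |(fderiv ℝ (g i) z).det| ≤ Dm)
    (hψc : Continuous ψ) (hhc : Continuous h) (hdc : Continuous d) (hdpos : ∀ z, 0 < d z)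
    {V : E → ℝ} (hVc : Continuous V) (hVi : Integrable fun x => Real.exp (-V x))
    (hlaw : Tendsto (fun i => ∫ x : E, |Real.exp (-V x) / (∫ x, Real.exp (-V x)) -
      Real.exp (-(κ i * c i x - Qx (κ i) (c i) x)) / (∫ y : E, Real.exp (-ph (κ i) (c i) y))|)
      atTop (𝓝 0)) :
    0 < (∫ z : E, Real.exp (-(⟪z, h z⟫ - ψ z)) * d z) ∧
    ∀ x, Real.exp (-V x) / (∫ x, Real.exp (-V x)) =
      Real.exp (-(⟪x, h x⟫ - ψ x)) * d x / (∫ z : E, Real.exp (-(⟪z, h z⟫ - ψ z)) * d z) := by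
  have ha := (hG 0).a_pos
  obtain ⟨Z, hZ⟩ : ∃ Z : ℝ, Z = ∫ z : E, Real.exp (-(⟪z, h z⟫ - ψ z)) * d z := ⟨_, rfl⟩
  obtain ⟨ZV, hZV⟩ : ∃ ZV : ℝ, ZV = ∫ x, Real.exp (-V x) := ⟨_, rfl⟩
  have hZVpos : 0 < ZV := by
    rw [hZV]
    exact integral_exp_pos hVi
  -- positivity of Z
  have hDmd : ∀ z, d z ≤ Dm := fun z =>
    le_of_tendsto (hd z) (Eventually.of_forall fun i => (le_abs_self _).trans (hDm i z))
  have hleg : ∀ z, a / 2 * ‖z‖ ^ 2 ≤ ⟪z, h z⟫ - ψ z := fun z =>
    ge_of_tendsto ((tendsto_const_nhds.inner (hg z)).sub (hc z))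
      (Eventually.of_forall fun i => (hG i).leg_ge (h0 i) z)
  have hcont : Continuous fun z : E => Real.exp (-(⟪z, h z⟫ - ψ z)) * d z :=
    (Real.continuous_exp.comp ((continuous_id.inner hhc).sub hψc).neg).mul hdc
  have hZi : Integrable fun z : E => Real.exp (-(⟪z, h z⟫ - ψ z)) * d z := by
    refine ((integrable_gauss (E := E) (half_pos ha)).mul_const Dm).mono'
      hcont.aestronglyMeasurable (Eventually.of_forall fun z => ?_)
    rw [Real.norm_eq_abs, abs_of_pos (mul_pos (Real.exp_pos _) (hdpos z))]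
    refine mul_le_mul (Real.exp_le_exp.2 ?_) (hDmd z) (hdpos z).le (Real.exp_pos _).le
    linarith [hleg z]
  have hZpos : 0 < Z := by
    rw [hZ]
    refine (integral_pos_iff_support_of_nonneg
      (fun z => (mul_pos (Real.exp_pos _) (hdpos z)).le) hZi).2 ?_
    have : Function.support (fun z : E => Real.exp (-(⟪z, h z⟫ - ψ z)) * d z) = Set.univ := by
      ext z
      simp [(hdpos z).ne', (Real.exp_pos _).ne']
    rw [this]
    exact isOpen_univ.measure_pos _ Set.univ_nonempty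
  rw [← hZ, ← hZV]
  refine ⟨hZpos, ?_⟩
  -- test functions
  have key : ∀ G : E → ℝ, ContDiff ℝ (⊤ : ℕ∞) G → HasCompactSupport G →
      ∫ x, G x • (Real.exp (-V x) / ZV - Real.exp (-(⟪x, h x⟫ - ψ x)) * d x / Z) = 0 := by
    intro G hGs hGc
    obtain ⟨K, hK⟩ := hGs.lipschitzWith_of_hasCompactSupport hGc (by simp)
    obtain ⟨B, hB⟩ : ∃ B : ℝ, ∀ x, |G x| ≤ B := by
      obtain ⟨B, hB⟩ := hGc.exists_bound_of_continuous hGs.continuous
      exact ⟨B, fun x => hB x⟩
    have hB0 : 0 ≤ B := (abs_nonneg _).trans (hB 0)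
    have hKL : ∀ x y, |G x - G y| ≤ K * ‖x - y‖ := fun x y => by
      have := hK.dist_le_mul x y
      rwa [Real.dist_eq, dist_eq_norm] at this
    have t1 := tendsto_law hG hA hκ0 hκ h0 g0 hc hg hd hDm hGs.continuous hB K.2 hKL
    have t2 := tendsto_Z hG hA hκ0 hκ h0 hc hg hd hDm
    rw [← hZ] at t2
    have t3 : Tendsto (fun i => (∫ x : E, G x * Real.exp (-(κ i * c i x - Qx (κ i) (c i) x))) /
          (∫ y : E, Real.exp (-ph (κ i) (c i) y))) atTop
          (𝓝 ((∫ z : E, Real.exp (-(⟪z, h z⟫ - ψ z)) * G z * d z) / Z)) := t1.div t2 hZpos.ne'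
    rw [← hZV] at hlaw
    -- difference of the two integrals
    have t4 : Tendsto (fun i => (∫ x : E, G x * (Real.exp (-V x) / ZV)) -
        (∫ x : E, G x * Real.exp (-(κ i * c i x - Qx (κ i) (c i) x))) /
          (∫ y : E, Real.exp (-ph (κ i) (c i) y))) atTop (𝓝 0) := by
      have hb : ∀ i, ‖(∫ x : E, G x * (Real.exp (-V x) / ZV)) -
        (∫ x : E, G x * Real.exp (-(κ i * c i x - Qx (κ i) (c i) x))) /
          (∫ y : E, Real.exp (-ph (κ i) (c i) y))‖ ≤ B * ∫ x : E, |Real.exp (-V x) / ZV -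
      Real.exp (-(κ i * c i x - Qx (κ i) (c i) x)) / (∫ y : E, Real.exp (-ph (κ i) (c i) y))| := by
        intro i
        obtain ⟨Zi, hZi'⟩ : ∃ Zi : ℝ, Zi = ∫ y : E, Real.exp (-ph (κ i) (c i) y) := ⟨_, rfl⟩
        rw [← hZi']
        have hI1 : Integrable fun x : E => Real.exp (-(κ i * c i x - Qx (κ i) (c i) x)) := by
          have h1 := ((hG i).integrable_Kk hA (hκ0 i) (h0 i) (g0 i)).integral_prod_left
          refine h1.congr (Eventually.of_forall fun x => ?_)
          simp only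
          rw [show -(κ i * c i x - Qx (κ i) (c i) x) = -(κ i * c i x) + Qx (κ i) (c i) x by ring,
            Real.exp_add, (hG i).exp_Q hA (hκ0 i) (h0 i) (g0 i) x, ← integral_const_mul]
          refine integral_congr_ae (Eventually.of_forall fun y => ?_)
          simp only [Kk]
          rw [← Real.exp_add, ← Real.exp_add]
          congr 1
          rw [real_inner_smul_right, real_inner_smul_right, real_inner_comm]
          ring
        have hI2 : Integrable fun x : E => Real.exp (-V x) / ZV := hVi.div_const _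
        have hm1 : Integrable fun x : E => G x * (Real.exp (-V x) / ZV) :=
          hI2.bdd_mul hGs.continuous.aestronglyMeasurable (Eventually.of_forall fun x => hB x)
        have hm2 : Integrable fun x : E => G x *
            (Real.exp (-(κ i * c i x - Qx (κ i) (c i) x)) / Zi) :=
          (hI1.div_const _).bdd_mul hGs.continuous.aestronglyMeasurable
            (Eventually.of_forall fun x => hB x)
        have e1 : (∫ x : E, G x * (Real.exp (-V x) / ZV)) -
            (∫ x : E, G x * Real.exp (-(κ i * c i x - Qx (κ i) (c i) x))) / Zi =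
            ∫ x : E, G x * (Real.exp (-V x) / ZV -
              Real.exp (-(κ i * c i x - Qx (κ i) (c i) x)) / Zi) := by
          rw [← integral_div]
          have : (fun x : E => G x * Real.exp (-(κ i * c i x - Qx (κ i) (c i) x)) / Zi) =
              fun x : E => G x * (Real.exp (-(κ i * c i x - Qx (κ i) (c i) x)) / Zi) := by
            funext x
            ring
          rw [this, ← integral_sub hm1 hm2]
          refine integral_congr_ae (Eventually.of_forall fun x => ?_)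
          simp only
          ring
        rw [e1, ← integral_const_mul]
        refine (norm_integral_le_integral_norm _).trans ?_
        refine integral_mono_of_nonneg (Eventually.of_forall fun x => norm_nonneg _)
          (((hI2.sub (hI1.div_const Zi)).abs).const_mul B) (Eventually.of_forall fun x => ?_)
        simp only [norm_mul, Real.norm_eq_abs]
        exact mul_le_mul_of_nonneg_right (hB x) (abs_nonneg _)
      have h2 := hlaw.const_mul B
      rw [mul_zero] at h2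
      exact squeeze_zero_norm hb h2
    have t5 := t4.add t3
    simp only [sub_add_cancel, zero_add] at t5
    have e := tendsto_nhds_unique t5 tendsto_const_nhds
    have hm1 : Integrable fun x : E => G x * (Real.exp (-V x) / ZV) :=
      (hVi.div_const _).bdd_mul hGs.continuous.aestronglyMeasurable
        (Eventually.of_forall fun x => hB x)
    have hm2 : Integrable fun x : E => G x * (Real.exp (-(⟪x, h x⟫ - ψ x)) * d x / Z) :=
      (hZi.div_const _).bdd_mul hGs.continuous.aestronglyMeasurable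
        (Eventually.of_forall fun x => hB x)
    simp only [smul_eq_mul, mul_sub]
    rw [integral_sub hm1 hm2, sub_eq_zero, ← e, ← integral_div]
    refine integral_congr_ae (Eventually.of_forall fun x => ?_)
    simp only
    ring
  have hcu : Continuous fun x => Real.exp (-V x) / ZV - Real.exp (-(⟪x, h x⟫ - ψ x)) * d x / Z :=
    ((Real.continuous_exp.comp hVc.neg).div_const _).sub (hcont.div_const _)
  have h1 := ae_eq_zero_of_integral_contDiff_smul_eq_zero hcu.locallyIntegrable key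
  have h2 : (fun x => Real.exp (-V x) / ZV - Real.exp (-(⟪x, h x⟫ - ψ x)) * d x / Z) =
      fun _ => 0 :=
    Continuous.ae_eq_iff_eq (μ := (volume : Measure E)) hcu continuous_const |>.1 h1
  intro x
  have h3 := congrFun h2 x
  linarith

end lim

end Vale.Agent.P227.M.Dir
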