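import Vale.Agent.P227.M.MM.Dir3
import Vale.Agent.P227.M.LK.Defs
import Vale.Agent.P227.M.Cpt.C2

/-! # P227/M/MM: Monge-Ampere limit directly in x-space, part 4 (helper464): from the level-`k`
class to `MM`. -/

namespace Vale.Agent.P227.M.Dir

open MeasureTheory Filter Topology
open scoped RealInnerProductSpace

set_option linter.unusedSectionVars false

variable {n : ℕ}

/-- second derivative as a bilinear form -/
theorem hess_eq {f : E n → ℝ} (hf : ContDiff ℝ 2 f) (x : E n) (i j : Fin n) :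
    hess f x i j = fderiv ℝ (fderiv ℝ f) x (ei i) (ei j) := by
  have h1 : DifferentiableAt ℝ (fderiv ℝ f) x :=
    ((hf.fderiv_right (m := 1) (by norm_num)).differentiable (by norm_num)) x
  unfold hess pd
  rw [show (fun x => fderiv ℝ f x (ei j)) = fun x => (fderiv ℝ f x) ((fun _ => ei j) x) from rfl,
    fderiv_clm_apply h1 (differentiableAt_const _)]
  simp

theorem sum_ei (v : E n) : v = ∑ i, v i • ei i := by
  ext k
  simp [ei, Finset.sum_apply, Pi.single_apply]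

theorem qf_eq {f : E n → ℝ} (hf : ContDiff ℝ 2 f) (x v : E n) :
    qf (hess f x) v = fderiv ℝ (fderiv ℝ f) x v v := by
  conv_rhs => rw [sum_ei v]
  simp only [map_sum, map_smul, sum_apply, smul_apply,
    smul_eq_mul]
  unfold qf
  rw [Finset.sum_comm]
  refine Finset.sum_congr rfl fun i _ => ?_
  rw [Finset.mul_sum]
  refine Finset.sum_congr rfl fun j _ => ?_
  rw [hess_eq hf]
  ring

/-- the Riesz isomorphism -/
noncomputable def Jd (n : ℕ) : (E n →L[ℝ] ℝ) →L[ℝ] E n :=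
  ∑ i, (ContinuousLinearMap.apply ℝ ℝ (ei i : E n)).smulRight (ei i)

theorem inner_Jd (φ : E n →L[ℝ] ℝ) (v : E n) : ⟪Jd n φ, v⟫ = φ v := by
  have h1 : Jd n φ = ∑ i, φ (ei i) • ei i := by
    unfold Jd
    simp
  have h2 := congrArg φ (sum_ei v)
  rw [h2, h1, map_sum, sum_inner]
  refine Finset.sum_congr rfl fun i _ => ?_
  rw [real_inner_smul_left, map_smul, smul_eq_mul, mul_comm]
  congr 1
  unfold ei
  rw [EuclideanSpace.inner_single_left]
  simp

/-- gradient map -/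
noncomputable def gr (f : E n → ℝ) (x : E n) : E n := Jd n (fderiv ℝ f x)

theorem inner_gr (f : E n → ℝ) (x v : E n) : ⟪gr f x, v⟫ = fderiv ℝ f x v :=
  inner_Jd _ _

theorem gr_contDiff {f : E n → ℝ} (hf : ContDiff ℝ 2 f) : ContDiff ℝ 1 (gr f) :=
  (Jd n).contDiff.comp (hf.fderiv_right (m := 1) (by norm_num))

/-- `T ↦ toDual.symm ∘ T` -/
noncomputable def Js : (E n →L[ℝ] (E n →L[ℝ] ℝ)) → (E n →L[ℝ] E n) := fun T =>
  (Jd n).comp T

theorem Js_cont : Continuous (Js (n := n)) :=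
  ((ContinuousLinearMap.compL ℝ (E n) (E n →L[ℝ] ℝ) (E n)) (Jd n)).continuous

theorem fderiv_gr {f : E n → ℝ} (hf : ContDiff ℝ 2 f) (x : E n) :
    fderiv ℝ (gr f) x = Js (fderiv ℝ (fderiv ℝ f) x) := by
  have h1 : DifferentiableAt ℝ (fderiv ℝ f) x :=
    ((hf.fderiv_right (m := 1) (by norm_num)).differentiable (by norm_num)) x
  unfold Js gr
  exact ((Jd n).hasFDerivAt.comp x h1.hasFDerivAt).fderiv

theorem inner_Js (T : E n →L[ℝ] (E n →L[ℝ] ℝ)) (v w : E n) : ⟪Js T v, w⟫ = T v w :=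
  inner_Jd _ _

theorem det_gr {f : E n → ℝ} (hf : ContDiff ℝ 2 f) (x : E n) :
    (fderiv ℝ (gr f) x).det = (hess f x).det := by
  have h1 : LinearMap.toMatrix (EuclideanSpace.basisFun (Fin n) ℝ).toBasis
      (EuclideanSpace.basisFun (Fin n) ℝ).toBasis ((fderiv ℝ (gr f) x : E n →L[ℝ] E n) :
        E n →ₗ[ℝ] E n) = (hess f x).transpose := by
    ext i j
    rw [LinearMap.toMatrix_apply, Matrix.transpose_apply, hess_eq hf, fderiv_gr hf]
    simp only [OrthonormalBasis.coe_toBasis, OrthonormalBasis.coe_toBasis_repr_apply,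
      EuclideanSpace.basisFun_apply, EuclideanSpace.basisFun_repr]
    have h2 := inner_Js (fderiv ℝ (fderiv ℝ f) x) (ei j) (ei i)
    rw [← h2]
    unfold ei
    rw [EuclideanSpace.inner_single_right]
    simp
  unfold ContinuousLinearMap.det
  rw [← LinearMap.det_toMatrix (EuclideanSpace.basisFun (Fin n) ℝ).toBasis, h1,
    Matrix.det_transpose]

section bounds

variable {f : E n → ℝ} {a A : ℝ}

theorem gr_of_hess (ha : 0 < a) (hf : ContDiff ℝ 2 f)
    (hlo : ∀ x v, a * ‖v‖ ^ 2 ≤ qf (hess f x) v) (hup : ∀ x v, qf (hess f x) v ≤ A * ‖v‖ ^ 2) :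
    Gr f (gr f) a A := by
  have hder : ∀ x y : E n, ∀ t : ℝ, HasDerivAt (fun t : ℝ => ⟪gr f (y + t • (x - y)), x - y⟫)
      (fderiv ℝ (fderiv ℝ f) (y + t • (x - y)) (x - y) (x - y)) t := by
    intro x y t
    have h2 : HasDerivAt (fun t : ℝ => y + t • (x - y)) (x - y) t := by
      simpa using ((hasDerivAt_id t).smul_const (x - y)).const_add y
    have h1 : DifferentiableAt ℝ (fderiv ℝ f) (y + t • (x - y)) :=
      ((hf.fderiv_right (m := 1) (by norm_num)).differentiable (by norm_num)) _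
    have h3 := h1.hasFDerivAt.comp_hasDerivAt t h2
    have h4 := h3.clm_apply (hasDerivAt_const t (x - y))
    simp only [map_zero, add_zero] at h4
    simp only [inner_gr]
    exact h4
  refine ⟨ha, fun x => ?_, gr_contDiff hf, fun x y => ?_, fun x y => ?_⟩
  · have h1 := ((hf.differentiable (by norm_num)) x).hasFDerivAt
    have h2 : innerSL ℝ (gr f x) = fderiv ℝ f x := by
      ext v
      simp [inner_gr]
    rwa [h2]
  · have h1 := mul_sub_le_image_sub_of_le_deriv (f := fun t : ℝ => ⟪gr f (y + t • (x - y)), x - y⟫)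
      (C := a * ‖x - y‖ ^ 2) (fun t => (hder x y t).differentiableAt)
      (fun t => by
        rw [(hder x y t).deriv, ← qf_eq hf]
        exact hlo _ _) zero_le_one
    simp only [one_smul, add_sub_cancel, zero_smul, add_zero, sub_zero, mul_one] at h1
    rwa [inner_sub_left]
  · have h1 := image_sub_le_mul_sub_of_deriv_le (f := fun t : ℝ => ⟪gr f (y + t • (x - y)), x - y⟫)
      (C := A * ‖x - y‖ ^ 2) (fun t => (hder x y t).differentiableAt)
      (fun t => by
        rw [(hder x y t).deriv, ← qf_eq hf]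
        exact hup _ _) zero_le_one
    simp only [one_smul, add_sub_cancel, zero_smul, add_zero, sub_zero, mul_one] at h1
    rwa [inner_sub_left]

theorem symm_fderiv (hf : ContDiff ℝ 2 f) (x u v : E n) :
    fderiv ℝ (fderiv ℝ f) x u v = fderiv ℝ (fderiv ℝ f) x v u := by
  have h := (hf.contDiffAt (x := x)).isSymmSndFDerivAt (by simp)
  exact h u v

theorem bilin_le (ha : 0 < a) (hA : 0 < A) (hf : ContDiff ℝ 2 f)
    (hlo : ∀ x v, a * ‖v‖ ^ 2 ≤ qf (hess f x) v) (hup : ∀ x v, qf (hess f x) v ≤ A * ‖v‖ ^ 2)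
    (x u v : E n) : |fderiv ℝ (fderiv ℝ f) x u v| ≤ A * ‖u‖ * ‖v‖ := by
  obtain ⟨T, hT⟩ : ∃ T : E n →L[ℝ] E n →L[ℝ] ℝ, T = fderiv ℝ (fderiv ℝ f) x := ⟨_, rfl⟩
  have hsym : ∀ u v, T u v = T v u := by
    rw [hT]
    exact symm_fderiv hf x
  have hp : ∀ v, 0 ≤ T v v := fun v => by
    rw [hT, ← qf_eq hf]
    exact le_trans (by positivity) (hlo x v)
  have hq : ∀ v, T v v ≤ A * ‖v‖ ^ 2 := fun v => by
    rw [hT, ← qf_eq hf]
    exact hup x v
  rw [← hT]
  have hd : discrim (T v v) (2 * T u v) (T u u) ≤ 0 := by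
    refine discrim_le_zero fun t => ?_
    have h1 := hp (u + t • v)
    simp only [map_add, map_smul, add_apply, smul_apply,
      smul_eq_mul] at h1
    rw [hsym v u] at h1
    linarith
  unfold discrim at hd
  have h2 : (T u v) ^ 2 ≤ (A * ‖u‖ * ‖v‖) ^ 2 := by
    have h3 : T v v * T u u ≤ (A * ‖v‖ ^ 2) * (A * ‖u‖ ^ 2) :=
      mul_le_mul (hq v) (hq u) (hp u) (by positivity)
    nlinarith
  exact abs_le_of_sq_le_sq h2 (by positivity)

theorem norm_snd_le (ha : 0 < a) (hA : 0 < A) (hf : ContDiff ℝ 2 f)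
    (hlo : ∀ x v, a * ‖v‖ ^ 2 ≤ qf (hess f x) v) (hup : ∀ x v, qf (hess f x) v ≤ A * ‖v‖ ^ 2)
    (x : E n) : ‖fderiv ℝ (fderiv ℝ f) x‖ ≤ A := by
  refine ContinuousLinearMap.opNorm_le_bound _ hA.le fun u => ?_
  refine ContinuousLinearMap.opNorm_le_bound _ (by positivity) fun v => ?_
  exact bilin_le ha hA hf hlo hup x u v

theorem norm_ei (i : Fin n) : ‖(ei i : E n)‖ = 1 := by
  simp [ei]

theorem abs_det_le (ha : 0 < a) (hA : 0 < A) (hf : ContDiff ℝ 2 f)
    (hlo : ∀ x v, a * ‖v‖ ^ 2 ≤ qf (hess f x) v) (hup : ∀ x v, qf (hess f x) v ≤ A * ‖v‖ ^ 2)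
    (x : E n) : |(fderiv ℝ (gr f) x).det| ≤ (Nat.factorial n : ℝ) * A ^ n := by
  rw [det_gr hf]
  have h1 := Matrix.det_le (abv := AbsoluteValue.abs) (A := hess f x) (x := A) (fun i j => by
    have := bilin_le ha hA hf hlo hup x (ei i) (ei j)
    rw [norm_ei, norm_ei, mul_one, mul_one] at this
    rw [hess_eq hf]
    exact this)
  simpa using h1

theorem fderiv_zero_of_even (hf : ContDiff ℝ 2 f) (he : ∀ x, f (-x) = f x) :
    fderiv ℝ f 0 = 0 := by
  have h1 := ((hf.differentiable (by norm_num)) 0).hasFDerivAt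
  have h3 : HasFDerivAt f (fderiv ℝ f 0) (-(0 : E n)) := by simpa using h1
  have h4 : HasFDerivAt (fun x : E n => f (-x))
      ((fderiv ℝ f 0).comp (-ContinuousLinearMap.id ℝ (E n))) 0 :=
    h3.comp (0 : E n) (hasFDerivAt_id (0 : E n)).neg
  have h5 : (fun x : E n => f (-x)) = f := funext he
  rw [h5] at h4
  have h6 := h1.unique h4
  ext v
  have h7 := congrArg (fun T : E n →L[ℝ] ℝ => T v) h6
  simp only [ContinuousLinearMap.comp_apply] at h7
  have h8 : (-ContinuousLinearMap.id ℝ (E n)) v = -v := by simp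
  rw [h8, map_neg] at h7
  simp only [ContinuousLinearMap.zero_apply]
  linarith

end bounds

/-- **From the level-`k` class to the moment map potential**, directly in `x`-space. -/
theorem mm_of_levels {V : E n → ℝ} {c0 C0 : ℝ} (hV : Nice V c0 C0) {κ : ℕ → ℝ}
    (hκ1 : ∀ i, 1 ≤ κ i) (hκ : Tendsto κ atTop atTop) {c : ℕ → E n → ℝ}
    (hC2 : ∀ i, ContDiff ℝ 2 (c i)) (hev : ∀ i x, c i (-x) = c i x) (h0 : ∀ i, c i 0 = 0)
    (hlo : ∀ i x v, c0 * (κ i + 1) / κ i * ‖v‖ ^ 2 ≤ qf (hess (c i) x) v)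
    (hup : ∀ i x v, qf (hess (c i) x) v ≤ C0 * (κ i + 1) / κ i * ‖v‖ ^ 2)
    {M : NNReal} (hM : ∀ i, LipschitzWith M (fderiv ℝ (fderiv ℝ (c i))))
    (hlaw : Tendsto (fun i => ∫ x : E n, |Real.exp (-V x) / (∫ x, Real.exp (-V x)) -
      Real.exp (-(κ i * c i x - LK.QK (κ i) (c i) x)) /
        (∫ y : E n, Real.exp (-LK.phiK (κ i) (c i) y))|) atTop (𝓝 0)) :
    ∃ (ψ : E n → ℝ) (M : ℝ), MM ψ V c0 C0 M := by
  have hc0 := hV.c_pos
  have hV2 : ContDiff ℝ 2 V := by exact_mod_cast (contDiff_infty.1 hV.smooth) 2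
  have hκ0 : ∀ i, 0 < κ i := fun i => lt_of_lt_of_le one_pos (hκ1 i)
  obtain ⟨A, hA⟩ : ∃ A : ℝ, A = 2 * |C0| + 1 := ⟨_, rfl⟩
  have hA0 : 0 < A := by
    rw [hA]
    positivity
  have hlo' : ∀ i x v, c0 * ‖v‖ ^ 2 ≤ qf (hess (c i) x) v := fun i x v => by
    refine le_trans (mul_le_mul_of_nonneg_right ?_ (sq_nonneg _)) (hlo i x v)
    rw [le_div_iff₀ (hκ0 i)]
    nlinarith
  have hup' : ∀ i x v, qf (hess (c i) x) v ≤ A * ‖v‖ ^ 2 := fun i x v => by
    refine le_trans (hup i x v) (mul_le_mul_of_nonneg_right ?_ (sq_nonneg _))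
    rw [div_le_iff₀ (hκ0 i), hA]
    have h1 := hκ1 i
    have h2 := le_abs_self C0
    have h3 := abs_nonneg C0
    nlinarith
  have hG : ∀ i, Gr (c i) (gr (c i)) c0 A := fun i =>
    gr_of_hess hc0 (hC2 i) (hlo' i) (hup' i)
  have hz : ∀ i, fderiv ℝ (c i) 0 = 0 := fun i => fderiv_zero_of_even (hC2 i) (hev i)
  -- compactness
  obtain ⟨ψ, s, hs, hψ2, hψL, ht0, ht1, ht2⟩ := Cpt.c2_compact c hC2 0 0 A M
    (fun i => by simp [h0 i]) (fun i => by simp [hz i])
    (fun i x => norm_snd_le hc0 hA0 (hC2 i) (hlo' i) (hup' i) x) hM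
  have p0 : ∀ x, Tendsto (fun i => c (s i) x) atTop (𝓝 (ψ x)) := fun x =>
    (tendstoLocallyUniformlyOn_univ.2 ht0).tendsto_at (Set.mem_univ x)
  have p1 : ∀ x, Tendsto (fun i => fderiv ℝ (c (s i)) x) atTop (𝓝 (fderiv ℝ ψ x)) := fun x =>
    (tendstoLocallyUniformlyOn_univ.2 ht1).tendsto_at (Set.mem_univ x)
  have p2 : ∀ x, Tendsto (fun i => fderiv ℝ (fderiv ℝ (c (s i))) x) atTop
      (𝓝 (fderiv ℝ (fderiv ℝ ψ) x)) := fun x =>
    (tendstoLocallyUniformlyOn_univ.2 ht2).tendsto_at (Set.mem_univ x)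
  have hκs : Tendsto (fun i => κ (s i)) atTop atTop := hκ.comp hs.tendsto_atTop
  -- bounds for the limit
  have hq : ∀ x v, Tendsto (fun i => qf (hess (c (s i)) x) v) atTop (𝓝 (qf (hess ψ x) v)) := by
    intro x v
    simp_rw [fun i => qf_eq (hC2 (s i)) x v]
    rw [qf_eq hψ2]
    have h1 : Continuous fun T : E n →L[ℝ] E n →L[ℝ] ℝ => T v v := by fun_prop
    exact (h1.tendsto _).comp (p2 x)
  have hψlo : ∀ x v, c0 * ‖v‖ ^ 2 ≤ qf (hess ψ x) v := fun x v =>
    ge_of_tendsto (hq x v) (Eventually.of_forall fun i => hlo' (s i) x v)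
  have hψup : ∀ x v, qf (hess ψ x) v ≤ C0 * ‖v‖ ^ 2 := fun x v => by
    have h1 : Tendsto (fun i => C0 * (κ (s i) + 1) / κ (s i) * ‖v‖ ^ 2) atTop
        (𝓝 (C0 * ‖v‖ ^ 2)) := by
      have h2 : Tendsto (fun i => (κ (s i))⁻¹) atTop (𝓝 0) := tendsto_inv_atTop_zero.comp hκs
      have h3 : Tendsto (fun i => (C0 + C0 * (κ (s i))⁻¹) * ‖v‖ ^ 2) atTop
          (𝓝 ((C0 + C0 * 0) * ‖v‖ ^ 2)) := ((h2.const_mul C0).const_add C0).mul_const _
      rw [mul_zero, add_zero] at h3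
      refine h3.congr fun i => ?_
      have := (hκ0 (s i)).ne'
      field_simp
    exact le_of_tendsto_of_tendsto' (hq x v) h1 fun i => hup (s i) x v
  have hψup' : ∀ x v, qf (hess ψ x) v ≤ A * ‖v‖ ^ 2 := fun x v =>
    le_of_tendsto (hq x v) (Eventually.of_forall fun i => hup' (s i) x v)
  have hGψ := gr_of_hess hc0 hψ2 hψlo hψup'
  have hψev : ∀ x, ψ (-x) = ψ x := fun x =>
    tendsto_nhds_unique (p0 (-x)) ((p0 x).congr fun i => (hev (s i) x).symm)
  have hgr0 : ∀ i, gr (c i) 0 = 0 := fun i => by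
    unfold gr
    rw [hz i, map_zero]
  have hdp : ∀ x, 0 < (hess ψ x).det := fun x => by
    rw [← det_gr hψ2]
    exact LIM.det_pos_of_mono hc0 (hGψ.C1.differentiable (by norm_num)) hGψ.lo x
  have hmain := limit_eq (c := fun i => c (s i)) (g := fun i => gr (c (s i))) (κ := fun i => κ (s i))
    (ψ := ψ) (h := gr ψ) (d := fun x => (hess ψ x).det) (V := V)
    (fun i => hG (s i)) hA0 (fun i => hκ0 (s i)) hκs (fun i => h0 (s i)) (fun i => hgr0 (s i)) p0
    (fun z => by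
      exact ((Jd n).continuous.tendsto _).comp (p1 z))
    (fun z => by
      rw [← det_gr hψ2, fderiv_gr hψ2]
      simp_rw [fun i => fderiv_gr (hC2 (s i)) z]
      exact ((ContinuousLinearMap.continuous_det.comp Js_cont).tendsto _).comp (p2 z))
    (fun i z => abs_det_le hc0 hA0 (hC2 (s i)) (hlo' (s i)) (hup' (s i)) z)
    hψ2.continuous hGψ.gcont
    (by
      simp_rw [← det_gr hψ2]
      exact ContinuousLinearMap.continuous_det.comp (hGψ.C1.continuous_fderiv (by norm_num)))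
    hdp hV.smooth.continuous
    (by
      -- integrability of exp (-V)
      have hGV := gr_of_hess hc0 hV2 hV.lower (A := C0) hV.upper
      have h1 := hGV.int_br (κ := 1) one_pos 0
      have h2 := h1.const_mul (Real.exp (-V 0))
      refine h2.congr (Eventually.of_forall fun x => ?_)
      simp only
      have h3 : gr V 0 = 0 := by
        unfold gr
        rw [fderiv_zero_of_even hV2 hV.even, map_zero]
      unfold Br
      rw [h3, inner_zero_left, ← Real.exp_add]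
      congr 1
      ring)
    (hlaw.comp hs.tendsto_atTop)
  obtain ⟨hZ, hdens⟩ := hmain
  obtain ⟨Z, hZe⟩ : ∃ Z : ℝ, Z = ∫ z : E n, Real.exp (-(⟪z, gr ψ z⟫ - ψ z)) * (hess ψ z).det :=
    ⟨_, rfl⟩
  rw [← hZe] at hZ hdens
  obtain ⟨ZV, hZV⟩ : ∃ ZV : ℝ, ZV = ∫ x, Real.exp (-V x) := ⟨_, rfl⟩
  rw [← hZV] at hdens
  have hZVpos : 0 < ZV := by
    by_contra hcon
    have h1 := hdens 0
    have h2 : 0 < Real.exp (-(⟪(0 : E n), gr ψ 0⟫ - ψ 0)) * (hess ψ 0).det / Z :=
      div_pos (mul_pos (Real.exp_pos _) (hdp 0)) hZ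
    rw [← h1] at h2
    exact hcon ((div_pos_iff_of_pos_left (Real.exp_pos _)).1 h2)
  obtain ⟨K, hK⟩ : ∃ K : ℝ, K = Real.log Z - Real.log ZV := ⟨_, rfl⟩
  have hpd : ∀ i x, pd i (fun x => ψ x - K) x = pd i ψ x := fun i x => by
    unfold pd
    rw [fderiv_sub_const]
  have hhess : ∀ x, hess (fun x => ψ x - K) x = hess ψ x := fun x => by
    ext i j
    unfold hess
    have : pd j (fun x => ψ x - K) = pd j ψ := funext fun x => hpd j x
    rw [this]
  refine ⟨fun x => ψ x - K, M, ⟨hc0, hψ2.sub contDiff_const, fun x => by simp only [hψev x],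
    fun x v => by rw [hhess]; exact hψlo x v, fun x v => by rw [hhess]; exact hψup x v,
    fun i j x y => ?_, fun x => ?_⟩⟩
  · rw [hhess, hhess, hess_eq hψ2, hess_eq hψ2, ← sub_apply,
      ← sub_apply, ← Real.norm_eq_abs]
    have h1 := (fderiv ℝ (fderiv ℝ ψ) x - fderiv ℝ (fderiv ℝ ψ) y).le_opNorm₂ (ei i) (ei j)
    rw [norm_ei, norm_ei, mul_one, mul_one] at h1
    refine h1.trans ?_
    have h2 := hψL.dist_le_mul x y
    rwa [dist_eq_norm, dist_eq_norm] at h2
  · simp only [hpd, hhess]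
    have h1 : ∑ i, x i * pd i ψ x = ⟪x, gr ψ x⟫ := by
      rw [real_inner_comm, inner_gr]
      have h3 := congrArg (fderiv ℝ ψ x) (sum_ei x)
      rw [h3, map_sum]
      refine Finset.sum_congr rfl fun i _ => ?_
      rw [map_smul, smul_eq_mul]
      rfl
    rw [h1, hK]
    have h2 := congrArg Real.log (hdens x)
    rw [Real.log_div (Real.exp_pos _).ne' hZVpos.ne', Real.log_exp,
      Real.log_div (mul_pos (Real.exp_pos _) (hdp x)).ne' hZ.ne',
      Real.log_mul (Real.exp_pos _).ne' (hdp x).ne', Real.log_exp] at h2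
    linarith

end Vale.Agent.P227.M.Dir
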