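import Vale.Agent.P227.M.MM.Ifc
import Vale.Agent.P227.M.DUAL.Coord

/-! # P227/M, block MM: the Legendre side -/

open MeasureTheory Filter
open scoped Topology

namespace Vale.Agent.P227.M.MM

open Lim

theorem dual_M_nonneg {n : ℕ} (hn : 0 < n) {a b M : ℝ} {φ : E n → ℝ} {G : E n → E n} {H : E n → E n →L[ℝ] E n}
    (h : C21 a b M φ G H) : 0 ≤ M := by
  have h1 := M_nonneg_of h 0 (ei ⟨0, hn⟩ : E n)
  have h2 : ‖(ei ⟨0, hn⟩ : E n)‖ = 1 := by simp [ei]
  rwa [h2, mul_one] at h1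

theorem stmtDual : StmtDual := by
  intro n hn V c₀ C₀ M hc hC φ g T hφ hMA
  have hM := dual_M_nonneg hn hφ
  obtain ⟨ψ, h, S, hl, hr, hψ, hh, hST, hTS, hSs, hSlow, hSn, hSlip, hhlip, hodd, hψev, hφψ⟩ :=
    DUAL.exists_dual (inv_pos.2 hC) (inv_nonneg.2 hc.le) hM hφ.grad hφ.hess hφ.lower hφ.upper hφ.lip hφ.even
  rw [inv_inv] at hSlow hSn hhlip
  refine ⟨M / C₀⁻¹ ^ 3, ψ, h, S, ⟨hψ, hh, hSlow, fun x v => ?_, hSlip, hψev⟩, fun x => ?_⟩
  · calc (inner ℝ (S x v) v : ℝ) ≤ ‖S x v‖ * ‖v‖ := real_inner_le_norm _ _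
      _ ≤ (C₀ * ‖v‖) * ‖v‖ := by
        refine mul_le_mul_of_nonneg_right ?_ (norm_nonneg _)
        exact (ContinuousLinearMap.le_opNorm _ _).trans (mul_le_mul_of_nonneg_right (hSn x) (norm_nonneg _))
      _ = C₀ * ‖v‖ ^ 2 := by ring
  · have h1 := hMA (h x)
    rw [hr] at h1
    have h2 : (S x).det * (T (h x)).det = 1 := by
      have h4 : LinearMap.det ((S x : E n →ₗ[ℝ] E n) ∘ₗ (T (h x) : E n →ₗ[ℝ] E n)) = 1 := by
        have h5 : (S x : E n →ₗ[ℝ] E n) ∘ₗ (T (h x) : E n →ₗ[ℝ] E n) = LinearMap.id := by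
          ext1 v
          exact hST x v
        rw [h5, LinearMap.det_id]
      rw [LinearMap.det_comp] at h4
      exact h4
    have hT0 : (T (h x)).det ≠ 0 := fun h0 => by
      rw [h0, mul_zero] at h2
      exact zero_ne_one h2
    have h6 : -φ (h x) = -V x + Real.log |(T (h x)).det| := by
      have h7 := congrArg Real.log h1
      rw [Real.log_exp, Real.log_mul (Real.exp_pos _).ne' (abs_pos.2 hT0).ne', Real.log_exp] at h7
      exact h7
    have h8 : Real.log (S x).det = -Real.log |(T (h x)).det| := by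
      rw [Real.log_abs, ← Real.log_inv]
      congr 1
      exact eq_inv_of_mul_eq_one_left h2
    have h9 := hφψ x
    rw [h8]
    linarith

/-- shortcut: the `y`-space output gives `StmtMM` -/
theorem stmtMM_of_LIM (h1 : StmtLIM) : StmtMM := by
  intro n V c C hV
  rcases Nat.eq_zero_or_pos n with rfl | hn
  · exact ⟨_, _, mm_zero hV⟩
  · obtain ⟨M, φ, G, H, hC, hma⟩ := h1 n hn V c C hV
    have hc : 0 < c := hV.c_pos
    have hC0 : 0 < C := hc.trans_le (nice_le hn hV.toReg)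
    obtain ⟨ψ, M', h2, -⟩ := DUAL.mm_of_lim hc hC0 (dual_M_nonneg hn hC) hC.grad hC.hess hC.lower hC.upper hC.lip
      hC.even hma
    exact ⟨ψ, M', h2⟩

end Vale.Agent.P227.M.MM
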