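import Vale.Agent.P227.M.Stmts
import Vale.Agent.P227.M.Lim.L3

/-! # P227/M, block MM: exact interfaces of the composition `StmtSC → LK → LIM → DUAL → StmtMM`. -/

open MeasureTheory Filter
open scoped Topology

namespace Vale.Agent.P227.M.MM

open Lim

/-- `φ_k[c](y) = (1/k) log ∫ exp (k ⟨x,y⟩ - k c x) dx` -/
noncomputable def phiK {n : ℕ} (k : ℝ) (c : E n → ℝ) (y : E n) : ℝ :=
  (1 / k) * logLap (fun x => k * c x) (k • y)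

/-- `Q_k[c](x) = log ∫ exp (k ⟨x,y⟩ - (k+1) φ_k[c] y) dy` -/
noncomputable def QK {n : ℕ} (k : ℝ) (c : E n → ℝ) (x : E n) : ℝ :=
  logLap (fun y => (k + 1) * phiK k c y) (k • x)

/-- the level-`k` map, normalised at `0` -/
noncomputable def TK {n : ℕ} (k : ℝ) (V c : E n → ℝ) (x : E n) : ℝ :=
  (V x + QK k c x) / k - (V 0 + QK k c 0) / k

/-- the invariant class at level `k` -/
structure Cls {n : ℕ} (k c₀ C₀ m : ℝ) (c : E n → ℝ) : Prop where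
  nice : Nice c (c₀ * (k + 1) / k) (C₀ * (k + 1) / k)
  sc : SelfConc m c
  zero : c 0 = 0

/-- iterates of the level-`k` map, started at a quadratic -/
noncomputable def itK {n : ℕ} (k c₀ : ℝ) (V : E n → ℝ) : ℕ → E n → ℝ
  | 0 => fun x => c₀ * (k + 1) / k / 2 * ‖x‖ ^ 2
  | i + 1 => TK k V (itK k c₀ V i)

/-- (owner: helper570) the class is invariant, for `k` large; `m` depends on `V` only -/
def StmtInv : Prop := ∀ (n : ℕ), 0 < n → ∀ (V : E n → ℝ) (c₀ C₀ : ℝ), Nice V c₀ C₀ →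
  ∃ m K₀ : ℝ, 0 ≤ m ∧ 1 ≤ K₀ ∧ ∀ k : ℝ, K₀ ≤ k →
    (∀ c : E n → ℝ, Cls k c₀ C₀ m c → Cls k c₀ C₀ m (TK k V c)) ∧
    (∀ c : E n → ℝ, Cls k c₀ C₀ m c →
      Nice (phiK k c) (k / ((k + 1) * C₀)) (k / ((k + 1) * c₀)) ∧ SelfConc m (phiK k c))

/-- the quadratic start is in the class -/
def StmtStart : Prop := ∀ (n : ℕ), 0 < n → ∀ (k c₀ C₀ m : ℝ), 0 < k → 0 < c₀ → c₀ ≤ C₀ → 0 ≤ m →
  Cls k c₀ C₀ m (fun x : E n => c₀ * (k + 1) / k / 2 * ‖x‖ ^ 2)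

/-- (owner: helper549) descent: along the iterates the level-`k` law gets its `x`-marginal right,
and `x` is close to `∇φ_k(y)` in the mean. `gradient` is the one of `phiK`. -/
def StmtDesc : Prop := ∀ (n : ℕ), 0 < n → ∀ (V : E n → ℝ) (c₀ C₀ m k : ℝ), Nice V c₀ C₀ → 0 ≤ m → 1 ≤ k →
  (∀ i, Cls k c₀ C₀ m (itK k c₀ V i)) →
  (∀ i, Nice (phiK k (itK k c₀ V i)) (k / ((k + 1) * C₀)) (k / ((k + 1) * c₀))) →
  ∀ ε > 0, ∃ i : ℕ, ∀ F : E n → ℝ, LipschitzWith 1 F → (∀ x, |F x| ≤ 1) →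
    |(∫ y, F (gradient (phiK k (itK k c₀ V i)) y) * Real.exp (-phiK k (itK k c₀ V i) y)) /
        (∫ y, Real.exp (-phiK k (itK k c₀ V i) y))
      - (∫ x, F x * Real.exp (-V x)) / (∫ x, Real.exp (-V x))| ≤ Real.sqrt (n / (c₀ * k)) + ε

/-- (owner: helper257) lines → tensors: a nice self-concordant function is `C21` -/
def StmtToC21 : Prop := ∀ (n : ℕ), 0 < n → ∀ (φ : E n → ℝ) (a b m : ℝ), Nice φ a b → 0 ≤ m → SelfConc m φ →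
  ∃ H : E n → E n →L[ℝ] E n, C21 a b (18 * m * b ^ ((3 : ℝ) / 2)) φ (gradient φ) H

/-- output of LK -/
def StmtLK : Prop := ∀ (n : ℕ), 0 < n → ∀ (V : E n → ℝ) (c₀ C₀ : ℝ), Nice V c₀ C₀ → ∃ M : ℝ, ∀ ε > 0, ε < 1 →
  ∃ (φ : E n → ℝ) (G : E n → E n) (H : E n → E n →L[ℝ] E n),
    C21 ((1 - ε) * C₀⁻¹) c₀⁻¹ M φ G H ∧
    (∫ y, Real.exp (-φ y)) = (∫ x, Real.exp (-V x)) ∧
    ∀ F : E n → ℝ, LipschitzWith 1 F → (∀ x, |F x| ≤ 1) →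
      |(∫ y, F (G y) * Real.exp (-φ y)) - ∫ x, F x * Real.exp (-V x)| ≤ ε

/-- output of LIM: the `C^{2,1}` moment map in `y`-space -/
def StmtLIM : Prop := ∀ (n : ℕ), 0 < n → ∀ (V : E n → ℝ) (c₀ C₀ : ℝ), Nice V c₀ C₀ →
  ∃ (M : ℝ) (φ : E n → ℝ) (G : E n → E n) (H : E n → E n →L[ℝ] E n),
    C21 C₀⁻¹ c₀⁻¹ M φ G H ∧ ∀ y, Real.exp (-φ y) = Real.exp (-V (G y)) * |(H y).det|

/-- output of DUAL (owner: helper997), gradient form in `x`-space -/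
def StmtDual : Prop := ∀ (n : ℕ), 0 < n → ∀ (V : E n → ℝ) (c₀ C₀ M : ℝ), 0 < c₀ → 0 < C₀ → ∀ (φ : E n → ℝ) (G : E n → E n)
  (H : E n → E n →L[ℝ] E n), C21 C₀⁻¹ c₀⁻¹ M φ G H →
  (∀ y, Real.exp (-φ y) = Real.exp (-V (G y)) * |(H y).det|) →
  ∃ (M' : ℝ) (ψ : E n → ℝ) (h : E n → E n) (S : E n → E n →L[ℝ] E n), C21 c₀ C₀ M' ψ h S ∧
    ∀ x, V x = inner ℝ x (h x) - ψ x - Real.log (S x).det

/-- (owner: helper878) gradient form → `MM` -/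
def StmtToMM : Prop := ∀ (n : ℕ), 0 < n → ∀ (V ψ : E n → ℝ) (h : E n → E n) (S : E n → E n →L[ℝ] E n) (c₀ C₀ M : ℝ),
  0 < c₀ → C21 c₀ C₀ M ψ h S → (∀ x, V x = inner ℝ x (h x) - ψ x - Real.log (S x).det) →
  ∃ M', MM ψ V c₀ C₀ M'

/-- for `n > 0` a nice potential has `c ≤ C` -/
theorem nice_le {n : ℕ} (hn : 0 < n) {V : E n → ℝ} {c C : ℝ} (h : Reg V c C) : c ≤ C := by
  have h1 := h.lower 0 (ei ⟨0, hn⟩)
  have h2 := h.upper 0 (ei ⟨0, hn⟩)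
  have h3 : ‖(ei ⟨0, hn⟩ : E n)‖ = 1 := by simp [ei]
  rw [h3] at h1 h2
  linarith

theorem mm_zero {V : E 0 → ℝ} {c C : ℝ} (h : Nice V c C) : MM (fun x => -V x) V c C 0 := by
  have hz : ∀ v : E 0, ‖v‖ = 0 := fun v => by rw [Subsingleton.elim v 0, norm_zero]
  refine ⟨h.c_pos, ?_, fun x => by rw [h.even], fun x v => ?_, fun x v => ?_, fun i => i.elim0, fun x => ?_⟩
  · exact_mod_cast contDiff_infty.1 h.smooth.neg 2
  · simp [qf, hz]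
  · simp [qf, hz]
  · simp

theorem stmtMM_of (h1 : StmtLIM) (h2 : StmtDual) (h3 : StmtToMM) : StmtMM := by
  intro n V c C hV
  rcases Nat.eq_zero_or_pos n with rfl | hn
  · exact ⟨_, _, mm_zero hV⟩
  · obtain ⟨M, φ, G, H, hC, hma⟩ := h1 n hn V c C hV
    have hc : 0 < c := hV.c_pos
    have hC0 : 0 < C := hc.trans_le (nice_le hn hV.toReg)
    obtain ⟨M', ψ, h, S, hψ, hS⟩ := h2 n hn V c C M hc hC0 φ G H hC hma
    obtain ⟨M'', hM⟩ := h3 n hn V ψ h S c C M' hc hψ hS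
    exact ⟨ψ, M'', hM⟩

end Vale.Agent.P227.M.MM
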