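import Vale.Agent.P227.M.MM.LK618
import Vale.Agent.P227.M.Bas

/-! # P227/M, block MM: `StmtInt` (integrability of `exp (-V)` for nice `V`) from `Bas`. -/

namespace Vale.Agent.P227.M.MM

theorem stmtInt : StmtInt := fun _ _ _ _ h => h.toReg.integrable_exp

end Vale.Agent.P227.M.MM
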