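import Vale.Agent.P227.M.MM.Inv
import Vale.Agent.P227.M.LK.RegLL570

/-! # `StmtInv` from `StmtSC` alone. -/

namespace Vale.Agent.P227.M.MM

theorem stmtInv_of_sc (hSC : StmtSC) : StmtInv := stmtInv_of hSC LK.H570.regLL

end Vale.Agent.P227.M.MM
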