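import Vale.Agent.P227.M.MM.Ifc
import Vale.Agent.P227.M.Lim.L4

/-! # P227/M, block MM: `StmtLK → StmtLIM` (helper273, on top of helper811's `exists_ma`). -/

open MeasureTheory Filter
open scoped Topology

namespace Vale.Agent.P227.M.MM.H273

open Lim

theorem c21_mono {n : ℕ} {a a' b M : ℝ} {φ : E n → ℝ} {G : E n → E n} {H : E n → E n →L[ℝ] E n}
    (h : C21 a b M φ G H) (ha : a' ≤ a) : C21 a' b M φ G H :=
  { h with lower := fun y v => le_trans (by gcongr) (h.lower y v) }

theorem stmtLIM_of (hLK : StmtLK) : StmtLIM := by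
  intro n hn V c₀ C₀ hV
  have hc : 0 < c₀ := hV.c_pos
  have hC : 0 < C₀ := hc.trans_le (nice_le hn hV.toReg)
  obtain ⟨M, hM⟩ := hLK n hn V c₀ C₀ hV
  have hVc : Continuous V := hV.smooth.continuous
  set e : ℕ → ℝ := fun k => 1 / ((k : ℝ) + 2) with he
  have he0 : ∀ k, 0 < e k := fun k => by simp only [he]; positivity
  have he1 : ∀ k, e k ≤ 1 / 2 := fun k => by
    simp only [he]
    apply one_div_le_one_div_of_le two_pos
    linarith [Nat.cast_nonneg (α := ℝ) k]
  have hlim : Tendsto e atTop (𝓝 0) := by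
    have h1 : Tendsto (fun k : ℕ => (k : ℝ) + 2) atTop atTop :=
      tendsto_atTop_add_const_right _ _ tendsto_natCast_atTop_atTop
    exact (h1.inv_tendsto_atTop).congr fun k => by simp [he]
  choose φ G H h1 h2 h3 using fun k => hM (e k) (he0 k) (lt_of_le_of_lt (he1 k) (by norm_num))
  have ha : 0 < (1 / 2) * C₀⁻¹ := by positivity
  have hb : 0 < c₀⁻¹ := by positivity
  have hC21 : ∀ k, C21 ((1 / 2) * C₀⁻¹) c₀⁻¹ M (φ k) (G k) (H k) := fun k =>
    c21_mono (h1 k) (by
      have := he1 k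
      have : 0 < C₀⁻¹ := by positivity
      nlinarith)
  have hVi : Integrable (fun x => Real.exp (-V x)) := by
    by_contra hni
    have e1 := h2 0
    rw [integral_undef hni] at e1
    have e2 : 0 < ∫ y, Real.exp (-φ 0 y) := by
      rw [integral_pos_iff_support_of_nonneg (fun y => (Real.exp_pos _).le) ((hC21 0).integrable ha)]
      have : Function.support (fun y : E n => Real.exp (-φ 0 y)) = Set.univ := by
        ext y; simp [Real.exp_ne_zero]
      rw [this]
      exact isOpen_univ.measure_pos _ Set.univ_nonempty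
    linarith
  have hpush : ∀ f : E n → ℝ, (∃ K, LipschitzWith K f) → (∃ B, ∀ x, |f x| ≤ B) →
      Tendsto (fun k => ∫ y, f (G k y) * Real.exp (-φ k y)) atTop
        (𝓝 (∫ x, f x * Real.exp (-V x))) := by
    rintro f ⟨K, hK⟩ ⟨B, hB⟩
    have hB0 : 0 ≤ B := (abs_nonneg _).trans (hB 0)
    set s : ℝ := (K : ℝ) + B + 1 with hs
    have hs0 : 0 < s := by have := K.coe_nonneg; positivity
    have hF1 : LipschitzWith 1 (fun x => s⁻¹ * f x) := by
      refine LipschitzWith.of_dist_le_mul fun x y => ?_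
      rw [Real.dist_eq, ← mul_sub, abs_mul, abs_of_pos (inv_pos.mpr hs0)]
      have h4 := hK.dist_le_mul x y
      rw [Real.dist_eq] at h4
      have h5 : (K : ℝ) ≤ s := by rw [hs]; linarith
      calc s⁻¹ * |f x - f y| ≤ s⁻¹ * (s * dist x y) := by gcongr; exact h4.trans (by gcongr)
        _ = dist x y := by field_simp
        _ = ((1 : NNReal) : ℝ) * dist x y := by simp
    have hF2 : ∀ x, |s⁻¹ * f x| ≤ 1 := by
      intro x
      rw [abs_mul, abs_of_pos (inv_pos.mpr hs0), inv_mul_le_iff₀ hs0]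
      have h5 : B ≤ s := by rw [hs]; have := K.coe_nonneg; linarith
      linarith [hB x]
    have hk : ∀ k, |(∫ y, f (G k y) * Real.exp (-φ k y)) - ∫ x, f x * Real.exp (-V x)| ≤ s * e k := by
      intro k
      have h6 := h3 k (fun x => s⁻¹ * f x) hF1 hF2
      have e1 : (∫ y, s⁻¹ * f (G k y) * Real.exp (-φ k y)) = s⁻¹ * ∫ y, f (G k y) * Real.exp (-φ k y) := by
        rw [← integral_const_mul]; congr 1; funext y; ring
      have e2 : (∫ x, s⁻¹ * f x * Real.exp (-V x)) = s⁻¹ * ∫ x, f x * Real.exp (-V x) := by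
        rw [← integral_const_mul]; congr 1; funext y; ring
      rw [e1, e2, ← mul_sub, abs_mul, abs_of_pos (inv_pos.mpr hs0), inv_mul_le_iff₀ hs0] at h6
      exact h6
    rw [tendsto_iff_dist_tendsto_zero]
    refine squeeze_zero (fun k => dist_nonneg) (fun k => ?_) (g := fun k => s * e k) ?_
    · rw [Real.dist_eq]; exact hk k
    · simpa using hlim.const_mul s
  obtain ⟨ψ, hψ, φ', G', H', hC', -, -, hH', hma⟩ := exists_ma ha hb hVc hVi hC21 h2 hpush
  refine ⟨M, φ', G', H', { hC' with lower := fun y v => ?_ }, fun y => ?_⟩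
  · have t1 : Tendsto (fun k => (1 - e (ψ k)) * C₀⁻¹ * ‖v‖ ^ 2) atTop (𝓝 (C₀⁻¹ * ‖v‖ ^ 2)) := by
      have t2 : Tendsto (fun k => (1 - e (ψ k)) * C₀⁻¹ * ‖v‖ ^ 2) atTop
          (𝓝 ((1 - 0) * C₀⁻¹ * ‖v‖ ^ 2)) :=
        ((tendsto_const_nhds.sub (hlim.comp hψ.tendsto_atTop)).mul_const _).mul_const _
      simpa using t2
    have t3 : Tendsto (fun k => inner ℝ (H (ψ k) y v) v) atTop (𝓝 (inner ℝ (H' y v) v)) :=
      (((ContinuousLinearMap.apply ℝ (E n) v).continuous.tendsto (H' y)).comp (hH' y)).inner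
        tendsto_const_nhds
    exact le_of_tendsto_of_tendsto' t1 t3 fun k => (h1 (ψ k)).lower y v
  · have hnn : 0 ≤ (H' y).det := by
      have h7 := hma y
      by_contra hneg
      push Not at hneg
      have := mul_neg_of_pos_of_neg (Real.exp_pos (-V (G' y))) hneg
      linarith [Real.exp_pos (-φ' y)]
    rw [abs_of_nonneg hnn]
    exact hma y

end Vale.Agent.P227.M.MM.H273
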