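import Vale.Agent.P227.M.MM.Ifc
import Vale.Agent.P227.M.Bas

/-! # P227/M, block MM: the output `StmtLK` of the block LK from its leaves. -/

open MeasureTheory Filter
open scoped Topology

namespace Vale.Agent.P227.M.MM.LK293

open Lim

variable {n : ℕ}

theorem C21.mono' {a b M a' b' M' : ℝ} {φ : E n → ℝ} {G : E n → E n} {H : E n → E n →L[ℝ] E n}
    (h : C21 a b M φ G H) (ha : a' ≤ a) (hb : b ≤ b') (hM : M ≤ M') (s : ℝ) :
    C21 a' b' M' (fun y => φ y + s) G H := by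
  refine ⟨fun y => ?_, h.hess, fun y v => ?_, fun y v => ?_, fun y y' => ?_, fun y => ?_⟩
  · have h1 := h.grad y
    rw [hasGradientAt_iff_hasFDerivAt] at h1 ⊢
    exact h1.add_const s
  · exact (mul_le_mul_of_nonneg_right ha (sq_nonneg _)).trans (h.lower y v)
  · exact (h.upper y v).trans (mul_le_mul_of_nonneg_right hb (sq_nonneg _))
  · exact (h.lip y y').trans (mul_le_mul_of_nonneg_right hM (norm_nonneg _))
  · simp only [h.even]

theorem stmtLK_of (h1 : StmtInv) (h2 : StmtStart) (h3 : StmtDesc) (h4 : StmtToC21) : StmtLK := by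
  intro n hn V c₀ C₀ hV
  obtain ⟨m, K₀, hm, hK₀, hinv⟩ := h1 n hn V c₀ C₀ hV
  have hc : 0 < c₀ := hV.c_pos
  have hcC : c₀ ≤ C₀ := nice_le hn hV.toReg
  have hC : 0 < C₀ := hc.trans_le hcC
  have hZ : 0 < ∫ x, Real.exp (-V x) := hV.toReg.Z_pos
  set Z := ∫ x, Real.exp (-V x) with hZdef
  refine ⟨18 * m * (c₀⁻¹) ^ ((3 : ℝ) / 2), fun ε hε hε1 => ?_⟩
  -- choice of `k`
  have hη : 0 < ε / (2 * Z) := by positivity
  obtain ⟨k, hkK, hk1, hk2⟩ : ∃ k : ℝ, K₀ ≤ k ∧ 1 / ε ≤ k ∧ n / (c₀ * (ε / (2 * Z)) ^ 2) ≤ k :=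
    ⟨max K₀ (max (1 / ε) (n / (c₀ * (ε / (2 * Z)) ^ 2))), le_max_left _ _,
      (le_max_left _ _).trans (le_max_right _ _), (le_max_right _ _).trans (le_max_right _ _)⟩
  have hkone : 1 ≤ k := hK₀.trans hkK
  have hk : 0 < k := by linarith
  obtain ⟨hT, hP⟩ := hinv k hkK
  have hcls : ∀ i, Cls k c₀ C₀ m (itK (n := n) k c₀ V i) := by
    intro i
    induction i with
    | zero => exact h2 n hn k c₀ C₀ m hk hc hcC hm
    | succ i ih => exact hT _ ih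
  have hnice : ∀ i, Nice (phiK k (itK k c₀ V i)) (k / ((k + 1) * C₀)) (k / ((k + 1) * c₀)) :=
    fun i => (hP _ (hcls i)).1
  obtain ⟨i, hi⟩ := h3 n hn V c₀ C₀ m k hV hm hkone hcls hnice (ε / (2 * Z)) hη
  set φ₀ := phiK k (itK k c₀ V i) with hφ₀
  obtain ⟨H, hH⟩ := h4 n hn φ₀ _ _ m (hnice i) hm (hP _ (hcls i)).2
  have hZ0 : 0 < ∫ y, Real.exp (-φ₀ y) := (hnice i).toReg.Z_pos
  set Z0 := ∫ y, Real.exp (-φ₀ y) with hZ0def
  set s := Real.log (Z0 / Z) with hs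
  have hexp : ∀ y, Real.exp (-(φ₀ y + s)) = Real.exp (-φ₀ y) * (Z / Z0) := by
    intro y
    rw [neg_add, Real.exp_add, hs, Real.exp_neg (Real.log _), Real.exp_log (by positivity), inv_div]
  have ha : (1 - ε) * C₀⁻¹ ≤ k / ((k + 1) * C₀) := by
    have h5 : 1 - ε ≤ k / (k + 1) := by
      rw [le_div_iff₀ (by positivity)]
      have h6 : 1 ≤ k * ε := by
        rwa [div_le_iff₀ hε] at hk1
      nlinarith
    calc (1 - ε) * C₀⁻¹ ≤ k / (k + 1) * C₀⁻¹ := by gcongr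
      _ = k / ((k + 1) * C₀) := by field_simp
  have hb0 : 0 ≤ k / ((k + 1) * c₀) := by positivity
  have hb : k / ((k + 1) * c₀) ≤ c₀⁻¹ := by
    rw [div_le_iff₀ (by positivity)]
    have : c₀⁻¹ * ((k + 1) * c₀) = k + 1 := by field_simp
    rw [this]; linarith
  have hM : 18 * m * (k / ((k + 1) * c₀)) ^ ((3 : ℝ) / 2) ≤ 18 * m * (c₀⁻¹) ^ ((3 : ℝ) / 2) := by
    have := Real.rpow_le_rpow hb0 hb (by norm_num : (0 : ℝ) ≤ (3 : ℝ) / 2)
    gcongr
  refine ⟨fun y => φ₀ y + s, gradient φ₀, H, C21.mono' hH ha hb hM s, ?_, fun F hF hF1 => ?_⟩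
  · simp_rw [hexp]
    rw [integral_mul_const, ← hZ0def]
    field_simp
  · have h7 := hi F hF hF1
    have h8 : (∫ y, F (gradient φ₀ y) * Real.exp (-(φ₀ y + s))) =
        (∫ y, F (gradient φ₀ y) * Real.exp (-φ₀ y)) * (Z / Z0) := by
      rw [← integral_mul_const]
      congr 1
      funext y
      rw [hexp, mul_assoc]
    show |(∫ y, F (gradient φ₀ y) * Real.exp (-(φ₀ y + s))) - ∫ x, F x * Real.exp (-V x)| ≤ ε
    rw [h8]
    have h9 : (∫ y, F (gradient φ₀ y) * Real.exp (-φ₀ y)) * (Z / Z0) - ∫ x, F x * Real.exp (-V x) =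
        Z * ((∫ y, F (gradient φ₀ y) * Real.exp (-φ₀ y)) / Z0 - (∫ x, F x * Real.exp (-V x)) / Z) := by
      field_simp
    rw [h9, abs_mul, abs_of_pos hZ]
    have h10 : Real.sqrt (n / (c₀ * k)) ≤ ε / (2 * Z) := by
      rw [Real.sqrt_le_left hη.le]
      rw [div_le_iff₀ (by positivity)] at hk2 ⊢
      calc (n : ℝ) ≤ k * (c₀ * (ε / (2 * Z)) ^ 2) := hk2
        _ = (ε / (2 * Z)) ^ 2 * (c₀ * k) := by ring
    calc Z * |(∫ y, F (gradient φ₀ y) * Real.exp (-φ₀ y)) / Z0 - (∫ x, F x * Real.exp (-V x)) / Z|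
        ≤ Z * (Real.sqrt (n / (c₀ * k)) + ε / (2 * Z)) := mul_le_mul_of_nonneg_left h7 hZ.le
      _ ≤ Z * (ε / (2 * Z) + ε / (2 * Z)) := by gcongr
      _ = ε := by field_simp; ring

end Vale.Agent.P227.M.MM.LK293
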