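import Vale.Agent.P227.M.MM.Ifc

/-! # P227/M, block MM: `StmtLK` from invariance, start, descent and the conversion to `C21`. -/

open MeasureTheory Filter
open scoped Topology

namespace Vale.Agent.P227.M.MM

open Lim

/-- integrability of `exp (-V)` for nice `V` -/
def StmtInt : Prop := ∀ (n : ℕ) (V : E n → ℝ) (c C : ℝ), Nice V c C → Integrable (fun x => Real.exp (-V x))

theorem C21.weaken {n : ℕ} {a b M a' b' M' : ℝ} {φ : E n → ℝ} {G : E n → E n} {H : E n → E n →L[ℝ] E n}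
    (h : C21 a b M φ G H) (ha : a' ≤ a) (hb : b ≤ b') (hM : M ≤ M') : C21 a' b' M' φ G H where
  grad := h.grad
  hess := h.hess
  lower := fun y v => (mul_le_mul_of_nonneg_right ha (sq_nonneg _)).trans (h.lower y v)
  upper := fun y v => (h.upper y v).trans (mul_le_mul_of_nonneg_right hb (sq_nonneg _))
  lip := fun y y' => (h.lip y y').trans (mul_le_mul_of_nonneg_right hM (norm_nonneg _))
  even := h.even

theorem C21.add_const {n : ℕ} {a b M : ℝ} {φ : E n → ℝ} {G : E n → E n} {H : E n → E n →L[ℝ] E n}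
    (h : C21 a b M φ G H) (s : ℝ) : C21 a b M (fun y => φ y + s) G H where
  grad := fun y => by
    have h1 := (h.grad y).hasFDerivAt.add_const s
    exact h1
  hess := h.hess
  lower := h.lower
  upper := h.upper
  lip := h.lip
  even := fun y => by rw [h.even]

theorem integrable_gauss {n : ℕ} {a : ℝ} (ha : 0 < a) : Integrable (fun x : E n => Real.exp (-(a * ‖x‖ ^ 2))) := by
  have h := GaussianFourier.integrable_cexp_neg_mul_sq_norm_add (V := E n) (b := (a : ℂ)) (by simpa using ha) 0 0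
  have h2 := h.norm
  refine h2.congr (ae_of_all _ fun x => ?_)
  simp only [Complex.norm_exp]
  congr 1
  simp [← Complex.ofReal_pow]

theorem C21.integrable {n : ℕ} {a b M : ℝ} (ha : 0 < a) {φ : E n → ℝ} {G : E n → E n} {H : E n → E n →L[ℝ] E n}
    (h : C21 a b M φ G H) : Integrable (fun x => Real.exp (-φ x)) := by
  have h1 := (integrable_gauss (n := n) (half_pos ha)).const_mul (Real.exp (-φ 0))
  refine h1.mono' ((Real.continuous_exp.comp h.continuous_phi.neg).aestronglyMeasurable) (ae_of_all _ fun x => ?_)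
  rw [Real.norm_eq_abs, abs_of_pos (Real.exp_pos _), ← Real.exp_add]
  apply Real.exp_le_exp.2
  have := h.phi_lower ha.le x
  linarith

theorem itK_cls {n : ℕ} {k c₀ C₀ m : ℝ} {V : E n → ℝ} (h0 : Cls k c₀ C₀ m (fun x : E n => c₀ * (k + 1) / k / 2 * ‖x‖ ^ 2))
    (hT : ∀ c : E n → ℝ, Cls k c₀ C₀ m c → Cls k c₀ C₀ m (TK k V c)) : ∀ i, Cls k c₀ C₀ m (itK k c₀ V i)
  | 0 => h0
  | i + 1 => hT _ (itK_cls h0 hT i)

theorem stmtLK_of (h1 : StmtInv) (h2 : StmtStart) (h3 : StmtDesc) (h4 : StmtToC21) (h5 : StmtInt) : StmtLK := by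
  intro n hn V c₀ C₀ hV
  have hc : 0 < c₀ := hV.c_pos
  have hcC : c₀ ≤ C₀ := nice_le hn hV.toReg
  have hC : 0 < C₀ := hc.trans_le hcC
  obtain ⟨m, K₀, hm, hK₀, hinv⟩ := h1 n hn V c₀ C₀ hV
  refine ⟨18 * m * (c₀⁻¹) ^ ((3 : ℝ) / 2), fun ε hε hε1 => ?_⟩
  have hVi := h5 n V c₀ C₀ hV
  have hZ : 0 < ∫ x, Real.exp (-V x) := integral_exp_pos hVi
  set Z := ∫ x, Real.exp (-V x) with hZdef
  -- choice of `k`
  set δ := ε / (2 * Z) with hδ
  have hδ0 : 0 < δ := by positivity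
  obtain ⟨k, hk⟩ : ∃ k : ℝ, K₀ ≤ k ∧ 1 / ε ≤ k ∧ (n : ℝ) / (c₀ * δ ^ 2) ≤ k :=
    ⟨max K₀ (max (1 / ε) ((n : ℝ) / (c₀ * δ ^ 2))), le_max_left _ _, (le_max_left _ _).trans (le_max_right _ _),
      (le_max_right _ _).trans (le_max_right _ _)⟩
  obtain ⟨hk1, hk2, hk3⟩ := hk
  have hk0 : 1 ≤ k := hK₀.trans hk1
  have hkpos : 0 < k := by linarith
  obtain ⟨hT, hphi⟩ := hinv k hk1
  have hcls : ∀ i, Cls k c₀ C₀ m (itK k c₀ V i) := itK_cls (h2 n hn k c₀ C₀ m hkpos hc hcC hm) hT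
  obtain ⟨i, hi⟩ := h3 n hn V c₀ C₀ m k hV hm hk0 hcls (fun i => (hphi _ (hcls i)).1) δ hδ0
  obtain ⟨hN, hS⟩ := hphi _ (hcls i)
  set φ₀ := phiK k (itK k c₀ V i) with hφ₀
  obtain ⟨H, hH⟩ := h4 n hn φ₀ _ _ m hN hm hS
  -- bounds
  have hkk : 1 - ε ≤ k / (k + 1) := by
    rw [le_div_iff₀ (by linarith)]
    have : 1 ≤ ε * k := by
      rw [div_le_iff₀ hε] at hk2
      linarith
    nlinarith
  have hkk1 : k / (k + 1) ≤ 1 := by
    rw [div_le_one (by linarith)]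
    linarith
  have e1 : k / ((k + 1) * C₀) = k / (k + 1) * C₀⁻¹ := by
    field_simp
  have e2 : k / ((k + 1) * c₀) = k / (k + 1) * c₀⁻¹ := by
    field_simp
  have hb1 : (1 - ε) * C₀⁻¹ ≤ k / ((k + 1) * C₀) := by
    rw [e1]
    exact mul_le_mul_of_nonneg_right hkk (by positivity)
  have hb2 : k / ((k + 1) * c₀) ≤ c₀⁻¹ := by
    rw [e2]
    exact mul_le_of_le_one_left (by positivity) hkk1
  have hb20 : 0 ≤ k / ((k + 1) * c₀) := by positivity
  have hM : 18 * m * (k / ((k + 1) * c₀)) ^ ((3 : ℝ) / 2) ≤ 18 * m * (c₀⁻¹) ^ ((3 : ℝ) / 2) :=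
    mul_le_mul_of_nonneg_left (Real.rpow_le_rpow hb20 hb2 (by norm_num)) (by positivity)
  have hH' := C21.weaken hH hb1 hb2 hM
  have ha' : 0 < (1 - ε) * C₀⁻¹ := mul_pos (by linarith) (by positivity)
  have hφi : Integrable (fun x => Real.exp (-φ₀ x)) := C21.integrable ha' hH'
  have hZ0 : 0 < ∫ x, Real.exp (-φ₀ x) := integral_exp_pos hφi
  set Z₀ := ∫ x, Real.exp (-φ₀ x) with hZ0def
  have hexp : ∀ y, Real.exp (-(φ₀ y + Real.log (Z₀ / Z))) = (Z / Z₀) * Real.exp (-φ₀ y) := by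
    intro y
    rw [neg_add, Real.exp_add, ← Real.log_inv, Real.exp_log (by positivity), inv_div, mul_comm]
  refine ⟨fun y => φ₀ y + Real.log (Z₀ / Z), gradient φ₀, H, C21.add_const hH' _, ?_, ?_⟩
  · simp only [hexp]
    rw [integral_const_mul, ← hZ0def]
    field_simp
  · intro F hF hF1
    have h6 := hi F hF hF1
    simp only [hexp]
    have e3 : ∀ y, F (gradient φ₀ y) * (Z / Z₀ * Real.exp (-φ₀ y)) =
        Z / Z₀ * (F (gradient φ₀ y) * Real.exp (-φ₀ y)) := fun y => by ring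
    simp only [e3]
    rw [integral_const_mul]
    set A := ∫ y, F (gradient φ₀ y) * Real.exp (-φ₀ y) with hA
    set B := ∫ x, F x * Real.exp (-V x) with hB
    have e4 : Z / Z₀ * A - B = Z * (A / Z₀ - B / Z) := by
      field_simp
    rw [e4, abs_mul, abs_of_pos hZ]
    have hs : Real.sqrt ((n : ℝ) / (c₀ * k)) ≤ δ := by
      apply Real.sqrt_le_iff.2
      refine ⟨hδ0.le, ?_⟩
      rw [div_le_iff₀ (by positivity)]
      rw [div_le_iff₀ (by positivity)] at hk3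
      nlinarith
    have h7 : |A / Z₀ - B / Z| ≤ 2 * δ := by linarith
    calc Z * |A / Z₀ - B / Z| ≤ Z * (2 * δ) := mul_le_mul_of_nonneg_left h7 hZ.le
      _ = ε := by rw [hδ]; field_simp

end Vale.Agent.P227.M.MM
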