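import Vale.Agent.P227.M.Stmts

/-! # P227/M/MM: the cut between (SC + LK) and (LIM + DUAL)

`StmtSeq`: for every `ε > 0` there is an `ε`-approximate moment map potential `φ` of `e^{-V}`
with the right pinching and a third derivative bound independent of `ε`.
`Ex` is normalised, so no normalisation of `V` or `φ` is needed. -/

open MeasureTheory
open scoped Topology

namespace Vale.Agent.P227.M

/-- blocks SC + LK : `ε`-approximate potentials with uniform bounds -/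
def StmtSeq : Prop := ∀ (n : ℕ) (V : E n → ℝ) (c C : ℝ), Nice V c C → ∃ K : ℝ, ∀ ε > 0,
  ∃ φ : E n → ℝ, ContDiff ℝ 3 φ ∧ (∀ y, φ (-y) = φ y) ∧
    (∀ y v, (C⁻¹ - ε) * ‖v‖ ^ 2 ≤ qf (hess φ y) v) ∧
    (∀ y v, qf (hess φ y) v ≤ (c⁻¹ + ε) * ‖v‖ ^ 2) ∧
    (∀ y v, |iteratedDeriv 3 (fun t : ℝ => φ (y + t • v)) 0| ≤ K * ‖v‖ ^ 3) ∧
    (∀ f : E n → ℝ, LipschitzWith 1 f → (∀ x, |f x| ≤ 1) →
      |Ex φ (fun y => f (gradient φ y)) - Ex V f| ≤ ε)

end Vale.Agent.P227.M
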