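import Vale.Agent.P227.M.MM.Ifc

/-! # P227/M, block MM: the quadratic start is in the class. -/

open MeasureTheory Filter
open scoped Topology

namespace Vale.Agent.P227.M.MM

namespace Start

theorem hasFDerivAt_quad {n : ℕ} (a : ℝ) (x : E n) :
    HasFDerivAt (fun x : E n => a / 2 * ‖x‖ ^ 2) (a • innerSL ℝ x) x := by
  have h := (hasStrictFDerivAt_norm_sq x).hasFDerivAt.const_mul (a / 2)
  have e : (a • innerSL ℝ x : E n →L[ℝ] ℝ) = (a / 2) • (2 • innerSL ℝ x) := by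
    rw [two_nsmul, smul_add, ← add_smul, add_halves]
  rw [e]
  exact h

theorem fderiv_quad {n : ℕ} (a : ℝ) :
    fderiv ℝ (fun x : E n => a / 2 * ‖x‖ ^ 2) = fun x => (a • innerSL ℝ : E n →L[ℝ] E n →L[ℝ] ℝ) x := by
  funext x
  rw [(hasFDerivAt_quad a x).fderiv]
  rfl

theorem pd_quad {n : ℕ} (a : ℝ) (j : Fin n) : pd j (fun x : E n => a / 2 * ‖x‖ ^ 2) = fun x => a * x j := by
  funext x
  unfold pd
  rw [fderiv_quad]
  simp only [ei, _root_.smul_apply, innerSL_apply_apply, smul_eq_mul]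
  rw [real_inner_comm, EuclideanSpace.inner_single_left]
  simp

theorem hess_quad {n : ℕ} (a : ℝ) (x : E n) (i j : Fin n) :
    hess (fun x : E n => a / 2 * ‖x‖ ^ 2) x i j = if i = j then a else 0 := by
  unfold hess
  rw [pd_quad]
  unfold pd
  have h : HasFDerivAt (fun x : E n => a * x j) (a • (EuclideanSpace.proj j : E n →L[ℝ] ℝ)) x :=
    ((EuclideanSpace.proj j : E n →L[ℝ] ℝ).hasFDerivAt).const_mul a
  rw [h.fderiv]
  simp [ei]
  by_cases hij : i = j
  · subst hij; simp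
  · simp [hij, Ne.symm hij]

theorem qf_quad {n : ℕ} (a : ℝ) (x v : E n) :
    qf (hess (fun x : E n => a / 2 * ‖x‖ ^ 2) x) v = a * ‖v‖ ^ 2 := by
  unfold qf
  simp only [hess_quad]
  rw [EuclideanSpace.norm_sq_eq, Finset.mul_sum]
  refine Finset.sum_congr rfl fun i _ => ?_
  rw [Finset.sum_eq_single i]
  · simp; ring
  · intro j _ hj
    simp [Ne.symm hj]
  · simp

theorem bdd_quad {n : ℕ} (a : ℝ) (k : ℕ) (hk : 2 ≤ k) :
    ∃ B : ℝ, ∀ x, ‖iteratedFDeriv ℝ k (fun x : E n => a / 2 * ‖x‖ ^ 2) x‖ ≤ B := by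
  obtain ⟨j, rfl⟩ : ∃ j, k = j + 1 + 1 := ⟨k - 2, by omega⟩
  refine ⟨‖(a • innerSL ℝ : E n →L[ℝ] E n →L[ℝ] ℝ)‖, fun x => ?_⟩
  rw [← norm_iteratedFDeriv_fderiv, fderiv_quad, ← norm_iteratedFDeriv_fderiv]
  have h : fderiv ℝ (fun x => (a • innerSL ℝ : E n →L[ℝ] E n →L[ℝ] ℝ) x) = fun _ => (a • innerSL ℝ : E n →L[ℝ] E n →L[ℝ] ℝ) := by
    funext y
    exact (a • innerSL ℝ : E n →L[ℝ] E n →L[ℝ] ℝ).fderiv
  rw [h]
  rcases Nat.eq_zero_or_pos j with rfl | hj
  · simp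
  · rw [iteratedFDeriv_const_of_ne (by omega)]
    simp only [Pi.zero_apply, norm_zero]
    positivity

theorem deriv_line {n : ℕ} (a : ℝ) (x v : E n) :
    deriv (fun t : ℝ => a / 2 * ‖x + t • v‖ ^ 2) = fun t => a * inner ℝ (x + t • v) v := by
  funext t
  have h1 : HasDerivAt (fun t : ℝ => x + t • v) v t := by
    simpa using ((hasDerivAt_id t).smul_const v).const_add x
  have h2 := (hasFDerivAt_quad a (x + t • v)).comp_hasDerivAt t h1
  have h3 : HasDerivAt (fun t : ℝ => a / 2 * ‖x + t • v‖ ^ 2) (a * inner ℝ (x + t • v) v) t := by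
    simpa only [Function.comp_def, _root_.smul_apply, innerSL_apply_apply, smul_eq_mul] using h2
  exact h3.deriv

theorem deriv_line2 {n : ℕ} (a : ℝ) (x v : E n) :
    deriv (fun t : ℝ => a * inner ℝ (x + t • v) v) = fun _ => a * ‖v‖ ^ 2 := by
  funext t
  have h1 : HasDerivAt (fun t : ℝ => x + t • v) v t := by
    simpa using ((hasDerivAt_id t).smul_const v).const_add x
  have h2 : HasDerivAt (fun t : ℝ => a * inner ℝ (x + t • v) v) (a * inner ℝ v v) t := by
    have h := (h1.inner ℝ (hasDerivAt_const t v)).const_mul a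
    simpa using h
  rw [h2.deriv, real_inner_self_eq_norm_sq]

theorem sc_quad {n : ℕ} (a m : ℝ) (ha : 0 ≤ a) (hm : 0 ≤ m) :
    SelfConc m (fun x : E n => a / 2 * ‖x‖ ^ 2) := by
  intro x v
  have h2 : iteratedDeriv 2 (fun t : ℝ => a / 2 * ‖x + t • v‖ ^ 2) = fun _ => a * ‖v‖ ^ 2 := by
    rw [iteratedDeriv_succ, iteratedDeriv_one, deriv_line, deriv_line2]
  have h3 : iteratedDeriv 3 (fun t : ℝ => a / 2 * ‖x + t • v‖ ^ 2) 0 = 0 := by
    rw [iteratedDeriv_succ, h2]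
    simp
  simp only at h3 ⊢
  rw [h3, h2]
  simp only [abs_zero]
  positivity

end Start

/-- the quadratic start is in the class -/
theorem stmtStart : StmtStart := by
  intro n hn k c₀ C₀ m hk hc hcC hm
  have ha : 0 < c₀ * (k + 1) / k := by positivity
  refine ⟨⟨⟨ha, ?_, ?_, ?_, ?_⟩, ?_⟩, ?_, ?_⟩
  · exact contDiff_const.mul (contDiff_norm_sq ℝ)
  · intro x v
    rw [Start.qf_quad]
  · intro x v
    rw [Start.qf_quad]
    gcongr
  · intro j hj
    exact Start.bdd_quad _ j hj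
  · intro x
    simp
  · exact Start.sc_quad _ m ha.le hm
  · simp

end Vale.Agent.P227.M.MM
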