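import Vale.Agent.P227.M.MM.Ifc

/-! # P227/M, block MM: the quadratic start is in the invariant class (`StmtStart`). -/

open MeasureTheory Filter
open scoped Topology

namespace Vale.Agent.P227.M.MM.Start293

variable {n : ℕ}

theorem hasFDerivAt_sq (α : ℝ) (x : E n) :
    HasFDerivAt (fun x : E n => α / 2 * ‖x‖ ^ 2) (α • innerSL ℝ x) x := by
  have h := ((hasStrictFDerivAt_norm_sq x).hasFDerivAt).const_mul (α / 2)
  refine h.congr_fderiv ?_
  ext v
  simp only [smul_apply, innerSL_apply_apply, smul_eq_mul, nsmul_eq_mul, Nat.cast_ofNat]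
  ring

theorem fderiv_sq (α : ℝ) :
    fderiv ℝ (fun x : E n => α / 2 * ‖x‖ ^ 2) = fun x => (α • innerSL ℝ x) :=
  funext fun x => (hasFDerivAt_sq α x).fderiv

theorem fderiv_fderiv_sq (α : ℝ) :
    fderiv ℝ (fderiv ℝ (fun x : E n => α / 2 * ‖x‖ ^ 2)) = fun _ => (α • innerSL ℝ : E n →L[ℝ] E n →L[ℝ] ℝ) := by
  rw [fderiv_sq]
  funext x
  exact (α • (innerSL ℝ : E n →L[ℝ] E n →L[ℝ] ℝ)).fderiv

theorem hess_sq (α : ℝ) (x : E n) (i j : Fin n) :
    hess (fun x : E n => α / 2 * ‖x‖ ^ 2) x i j = if i = j then α else 0 := by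
  have h1 : pd j (fun x : E n => α / 2 * ‖x‖ ^ 2) = fun x : E n => α * x j := by
    funext y
    rw [pd, fderiv_sq]
    simp [ei, EuclideanSpace.inner_single_right]
  rw [hess, h1, pd]
  have h2 : HasFDerivAt (fun x : E n => α * x j) (α • (EuclideanSpace.proj j : E n →L[ℝ] ℝ)) x :=
    ((EuclideanSpace.proj j : E n →L[ℝ] ℝ).hasFDerivAt).const_mul α
  rw [h2.fderiv]
  by_cases h : i = j
  · subst h; simp [ei]
  · have : j ≠ i := fun h' => h h'.symm
    simp [ei, h, this]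

theorem qf_sq (α : ℝ) (x v : E n) : qf (hess (fun x : E n => α / 2 * ‖x‖ ^ 2) x) v = α * ‖v‖ ^ 2 := by
  rw [qf, EuclideanSpace.norm_sq_eq, Finset.mul_sum]
  refine Finset.sum_congr rfl fun i _ => ?_
  simp only [hess_sq, ite_mul, zero_mul, Finset.sum_ite_eq, Finset.mem_univ, if_true, Real.norm_eq_abs, sq_abs]
  ring

theorem reg_sq {α C : ℝ} (hα : 0 < α) (hC : α ≤ C) : Reg (fun x : E n => α / 2 * ‖x‖ ^ 2) α C := by
  refine ⟨hα, contDiff_const.mul (contDiff_norm_sq ℝ), fun x v => (qf_sq α x v).ge, fun x v => ?_, fun k hk => ?_⟩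
  · rw [qf_sq]; gcongr
  · obtain ⟨m, rfl⟩ : ∃ m, k = m + 1 + 1 := ⟨k - 2, by omega⟩
    refine ⟨‖(α • innerSL ℝ : E n →L[ℝ] E n →L[ℝ] ℝ)‖, fun x => ?_⟩
    rw [← norm_iteratedFDeriv_fderiv, ← norm_iteratedFDeriv_fderiv, fderiv_fderiv_sq]
    rcases Nat.eq_zero_or_pos m with rfl | hm
    · rw [norm_iteratedFDeriv_zero]
    · rw [iteratedFDeriv_const_of_ne hm.ne']
      simp only [Pi.zero_apply, norm_zero]
      exact norm_nonneg (α • innerSL ℝ : E n →L[ℝ] E n →L[ℝ] ℝ)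

theorem line_eq (α : ℝ) (x v : E n) : (fun t : ℝ => α / 2 * ‖x + t • v‖ ^ 2) =
    fun t : ℝ => α / 2 * ‖x‖ ^ 2 + (α * inner ℝ x v) * t + (α / 2 * ‖v‖ ^ 2) * t ^ 2 := by
  funext t
  rw [norm_add_sq_real, norm_smul, inner_smul_right, mul_pow, Real.norm_eq_abs, sq_abs]
  ring

theorem deriv_quad (a b c : ℝ) : deriv (fun t : ℝ => a + b * t + c * t ^ 2) = fun t => b + 2 * c * t := by
  funext t
  have h : HasDerivAt (fun t : ℝ => a + b * t + c * t ^ 2) (0 + b * 1 + c * (2 * t)) t := by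
    have h1 := ((hasDerivAt_const t a).fun_add ((hasDerivAt_id' t).const_mul b)).fun_add ((hasDerivAt_pow 2 t).const_mul c)
    simpa using h1
  rw [h.deriv]
  ring

theorem deriv_lin (a b : ℝ) : deriv (fun t : ℝ => a + b * t) = fun _ => b := by
  funext t
  have h : HasDerivAt (fun t : ℝ => a + b * t) (0 + b * 1) t :=
    (hasDerivAt_const t a).fun_add ((hasDerivAt_id' t).const_mul b)
  rw [h.deriv]
  ring

theorem selfConc_sq {α m : ℝ} (hα : 0 ≤ α) (hm : 0 ≤ m) : SelfConc m (fun x : E n => α / 2 * ‖x‖ ^ 2) := by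
  intro x v
  have h2 : iteratedDeriv 2 (fun t : ℝ => α / 2 * ‖x + t • v‖ ^ 2) = fun _ => 2 * (α / 2 * ‖v‖ ^ 2) := by
    rw [line_eq, iteratedDeriv_succ', iteratedDeriv_one, deriv_quad, deriv_lin]
  have h3 : iteratedDeriv 3 (fun t : ℝ => α / 2 * ‖x + t • v‖ ^ 2) = fun _ => 0 := by
    rw [iteratedDeriv_succ, h2]
    funext t
    simp
  rw [h3, h2]
  have : (0 : ℝ) ≤ 2 * (α / 2 * ‖v‖ ^ 2) := by positivity
  simp only [abs_zero]
  positivity

theorem stmtStart : StmtStart := by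
  intro n _ k c₀ C₀ m hk hc hcC hm
  have hα : 0 < c₀ * (k + 1) / k := by positivity
  have hle : c₀ * (k + 1) / k ≤ C₀ * (k + 1) / k := by gcongr
  exact ⟨⟨reg_sq hα hle, fun x => by simp⟩, selfConc_sq hα.le hm, by simp⟩

end Vale.Agent.P227.M.MM.Start293
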