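import Vale.Agent.P227.M.MM.Ifc

/-! # P227/M, block MM: gradient form (`C21`) of the `x`-space potential gives `MM` (`StmtToMM`). -/

open MeasureTheory Filter
open scoped Topology

namespace Vale.Agent.P227.M.MM.ToMM

open Lim

variable {n : ℕ}

theorem inner_ei (v : E n) (j : Fin n) : (inner ℝ v (ei j) : ℝ) = v j := by
  simp [ei, EuclideanSpace.inner_single_right]

theorem pd_eq {ψ : E n → ℝ} {g : E n} {x : E n} (h : HasGradientAt ψ g x) (j : Fin n) :
    pd j ψ x = g j := by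
  unfold pd
  rw [h.hasFDerivAt.fderiv]
  simpa using inner_ei g j

theorem pd_comp {h : E n → E n} {S : E n →L[ℝ] E n} {x : E n} (hh : HasFDerivAt h S x) (i j : Fin n) :
    pd i (fun z => h z j) x = (S (ei i)) j := by
  unfold pd
  have h1 : HasFDerivAt (fun z => h z j) ((EuclideanSpace.proj (𝕜 := ℝ) j).comp S) x :=
    (EuclideanSpace.proj (𝕜 := ℝ) j : E n →L[ℝ] ℝ).hasFDerivAt.comp x hh
  rw [h1.fderiv]
  rfl

theorem hess_eq {a b M : ℝ} {ψ : E n → ℝ} {h : E n → E n} {S : E n → E n →L[ℝ] E n}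
    (H : C21 a b M ψ h S) (x : E n) (i j : Fin n) : hess ψ x i j = (S x (ei i)) j := by
  have h1 : pd j ψ = fun z => h z j := funext fun z => pd_eq (H.grad z) j
  unfold hess
  rw [h1]
  exact pd_comp (H.hess x) i j

theorem sum_ei (v : E n) : (∑ i, v i • (ei i : E n)) = v := by
  have := (EuclideanSpace.basisFun (Fin n) ℝ).sum_repr v
  simpa [ei] using this

theorem inner_sum (v w : E n) : (inner ℝ v w : ℝ) = ∑ i, v i * w i := by
  rw [EuclideanSpace.inner_eq_star_dotProduct]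
  simp [dotProduct, mul_comm]

theorem qf_eq {a b M : ℝ} {ψ : E n → ℝ} {h : E n → E n} {S : E n → E n →L[ℝ] E n}
    (H : C21 a b M ψ h S) (x v : E n) : qf (hess ψ x) v = inner ℝ (S x v) v := by
  have h1 : S x v = ∑ i, v i • S x (ei i) := by
    conv_lhs => rw [← sum_ei v]
    simp [map_sum]
  rw [inner_sum, h1]
  unfold qf
  simp_rw [hess_eq H]
  rw [Finset.sum_comm]
  refine Finset.sum_congr rfl fun j _ => ?_
  have h2 : ((∑ i, v i • S x (ei i) : E n) j : ℝ) = ∑ i, v i * (S x (ei i)) j := by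
    simp
  rw [h2, Finset.sum_mul]
  refine Finset.sum_congr rfl fun i _ => ?_
  ring

theorem det_eq {a b M : ℝ} {ψ : E n → ℝ} {h : E n → E n} {S : E n → E n →L[ℝ] E n}
    (H : C21 a b M ψ h S) (x : E n) : (hess ψ x).det = (S x).det := by
  have h1 : (S x).det = (LinearMap.toMatrix (EuclideanSpace.basisFun (Fin n) ℝ).toBasis
      (EuclideanSpace.basisFun (Fin n) ℝ).toBasis (S x : E n →ₗ[ℝ] E n)).det := by
    rw [LinearMap.det_toMatrix]
  rw [h1, ← Matrix.det_transpose]
  congr 1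
  ext i j
  rw [Matrix.transpose_apply, hess_eq H, LinearMap.toMatrix_apply]
  simp [ei]

theorem norm_ei (i : Fin n) : ‖(ei i : E n)‖ = 1 := by simp [ei]

theorem abs_coord_le (v : E n) (j : Fin n) : |v j| ≤ ‖v‖ := by
  simpa using EuclideanSpace.norm_eq v ▸ (Real.abs_le_sqrt
    (show (v j) ^ 2 ≤ ∑ i, ‖v i‖ ^ 2 from by
      simp only [Real.norm_eq_abs, sq_abs]
      exact Finset.single_le_sum (f := fun i => (v i) ^ 2) (fun i _ => sq_nonneg _) (Finset.mem_univ j)))

theorem S_cont {a b M : ℝ} {ψ : E n → ℝ} {h : E n → E n} {S : E n → E n →L[ℝ] E n}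
    (H : C21 a b M ψ h S) : Continuous S := by
  have : LipschitzWith (Real.toNNReal (max M 0)) S := by
    refine LipschitzWith.of_dist_le_mul fun x y => ?_
    rw [dist_eq_norm, dist_eq_norm, Real.coe_toNNReal _ (le_max_right _ _)]
    exact (H.lip x y).trans (mul_le_mul_of_nonneg_right (le_max_left _ _) (norm_nonneg _))
  exact this.continuous

theorem contDiff_two {a b M : ℝ} {ψ : E n → ℝ} {h : E n → E n} {S : E n → E n →L[ℝ] E n}
    (H : C21 a b M ψ h S) : ContDiff ℝ 2 ψ := by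
  have h1 : ContDiff ℝ 1 h := by
    rw [contDiff_one_iff_fderiv]
    refine ⟨fun x => (H.hess x).differentiableAt, ?_⟩
    have : fderiv ℝ h = S := funext fun x => (H.hess x).fderiv
    rw [this]
    exact S_cont H
  have h2 : fderiv ℝ ψ = fun x => (innerSL ℝ : E n →L[ℝ] E n →L[ℝ] ℝ) (h x) :=
    funext fun x => (H.grad x).hasFDerivAt.fderiv
  have h3 : ContDiff ℝ (1 + 1) ψ := by
    rw [contDiff_succ_iff_fderiv]
    refine ⟨fun x => (H.grad x).hasFDerivAt.differentiableAt, by simp, ?_⟩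
    rw [h2]
    exact (innerSL ℝ : E n →L[ℝ] E n →L[ℝ] ℝ).contDiff.comp h1
  have h4 : ((1 : WithTop ℕ∞) + 1) = 2 := by norm_num
  rwa [h4] at h3

end Vale.Agent.P227.M.MM.ToMM

namespace Vale.Agent.P227.M.MM

open Lim ToMM

theorem stmtToMM : StmtToMM := by
  intro n _ V ψ h S c₀ C₀ M hc H hV
  refine ⟨M, hc, contDiff_two H, H.even, fun x v => ?_, fun x v => ?_, fun i j x y => ?_, fun x => ?_⟩
  · rw [qf_eq H]; exact H.lower x v
  · rw [qf_eq H]; exact H.upper x v
  · rw [hess_eq H, hess_eq H]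
    have h1 : (S x (ei i)) j - (S y (ei i)) j = ((S x - S y) (ei i)) j := by simp
    rw [h1]
    refine (abs_coord_le _ _).trans ((ContinuousLinearMap.le_opNorm _ _).trans ?_)
    rw [norm_ei, mul_one]
    exact H.lip x y
  · rw [hV x, det_eq H, ToMM.inner_sum]
    congr 2
    exact Finset.sum_congr rfl fun i _ => by rw [pd_eq (H.grad x)]

end Vale.Agent.P227.M.MM
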