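import Vale.Agent.P227.M.MM.Fin618
import Vale.Agent.P227.M.MM.ToC21
import Vale.Agent.P227.M.MM.Desc290
import Vale.Agent.P227.M.MM.Inv2

/-! # P227/M, block MM: `StmtSC → StmtMM` complete. -/

namespace Vale.Agent.P227.M.MM

theorem stmtMM_of_SC (hSC : StmtSC) : StmtMM :=
  stmtMM_of_blocks hSC LK.H570.regLL D290.stmtDesc ToC21.stmtToC21

end Vale.Agent.P227.M.MM
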