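import Vale.Agent.P227.M.MM.Fin618
import Vale.Agent.P227.M.MM.Desc345
import Vale.Agent.P227.M.MM.ToC21
import Vale.Agent.P227.M.LL.RegLap

/-! # P227/M/MM (helper345): `StmtSC → StmtMM` -/

namespace Vale.Agent.P227.M.MM

theorem regLL_h345 : LK.RegLL := by
  intro n W c C h hC
  have := reg_logLap hC h
  simpa only [one_div] using this

theorem stmtMM_of_SC_h345 (hSC : StmtSC) : StmtMM :=
  stmtMM_of_blocks hSC regLL_h345 stmtDesc_h345 stmtToC21

end Vale.Agent.P227.M.MM
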